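import Vale.Agent.P088.R2.H437.IVD2
import Vale.Agent.P088.R2.H269.X.Spec

/-!
# P088, stage 3: row EXT of the adapter
-/

open MeasureTheory Set Filter Topology
open scoped ContDiff Matrix

noncomputable section

namespace Vale.Agent.P088.HY.H437.Kel

open Vale.Agent.P088.LR Vale.Agent.P088.HY Vale.Agent.P088.HY.T3

/-- **EXT.** -/
theorem rowEXT : R2.H269.RowEXT := by
  intro n hn K
  obtain ⟨χ, χa, ψ, χ2, h⟩ := exists_cuts (n := n)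
  obtain ⟨C, hC, H⟩ := ext_core hn h K
  refine ⟨K + 1, C, hC, fun ε s₁ s₂ G hε _ hN => ?_⟩
  obtain ⟨h1, h2, h3⟩ := H ε s₁ s₂ hε ⟨hN.sm₁, hN.sy₁, hN.cl₁, hN.of₁⟩
    ⟨hN.sm₂, hN.sy₂, hN.cl₂, hN.of₂⟩ (fun x hx => hN.eq x ⟨hN.b1 hx, by
      have h4 : HY.sq (x - 0) < 1 ^ 2 := hx
      show HY.sq (x - 0) < 24 ^ 2
      exact h4.trans (by norm_num)⟩)
  obtain ⟨a1, a2, a3, a4, a5, a6, a7⟩ := h1 s₁ (Or.inl rfl)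
  obtain ⟨b1, b2, b3, b4, b5, b6, b7⟩ := h1 s₂ (Or.inr rfl)
  refine ⟨st χ χa ψ χ2 s₁, st χ χa ψ χ2 s₂, vt χ χa ψ χ2 s₁, vt χ χa ψ χ2 s₂,
    ⟨a1, b1, a3, b3, a2, b2, a4, b4, a5, b5, fun x hx => ⟨(a6 x hx).1, (b6 x hx).1, (a6 x hx).2,
      (b6 x hx).2⟩, fun x hx => h2 x hx⟩, fun y hy h0 => ⟨(a7 y hy h0).1, (a7 y hy h0).2,
      (b7 y hy h0).1, (b7 y hy h0).2⟩, fun y hy b hj => ?_⟩
  exact h3 y b (ann_sq hy).1 (ann_sq hy).2 hj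

end Vale.Agent.P088.HY.H437.Kel
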