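import Vale.Agent.P088.R2.H437.KEL2
import Vale.Agent.P088.R2.H354.S11

/-!
# P088, stage 3: the common extension of two tensors in the inverted chart (row EXT of the adapter)
-/

open MeasureTheory Set Filter Topology
open scoped ContDiff Matrix

noncomputable section

namespace Vale.Agent.P088.HY.H437.Kel

open Vale.Agent.P088.LR Vale.Agent.P088.HY Vale.Agent.P088.HY.T3

variable {n : ℕ}

/-! ## Pointwise bounds of jets -/

/-- jets up to order `k` at the point `x` -/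
def Jp (k : ℕ) (A : ℝ) (f : V n → ℝ) (x : V n) : Prop := ∀ l ≤ k, ‖iteratedFDeriv ℝ l f x‖ ≤ A

theorem Jp.nonneg {k : ℕ} {A : ℝ} {f : V n → ℝ} {x : V n} (h : Jp k A f x) : 0 ≤ A :=
  (norm_nonneg _).trans (h 0 (Nat.zero_le _))

theorem jp_add {k : ℕ} {A B : ℝ} {f g : V n → ℝ} {x : V n} (hf : ContDiff ℝ ∞ f)
    (hg : ContDiff ℝ ∞ g) (h1 : Jp k A f x) (h2 : Jp k B g x) :
    Jp k (A + B) (fun x => f x + g x) x := by
  intro l hl
  have h3 : iteratedFDeriv ℝ l (fun x => f x + g x) x =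
      iteratedFDeriv ℝ l f x + iteratedFDeriv ℝ l g x :=
    iteratedFDeriv_add_apply (hf.of_le (by exact_mod_cast le_top)).contDiffAt
      (hg.of_le (by exact_mod_cast le_top)).contDiffAt
  rw [h3]
  exact (norm_add_le _ _).trans (add_le_add (h1 l hl) (h2 l hl))

theorem jp_pd {k : ℕ} {A : ℝ} {f : V n → ℝ} {x : V n} (hf : ContDiff ℝ ∞ f)
    (h : Jp (k + 1) A f x) (i : Fin n) : Jp k A (pd i f) x := by
  intro l hl
  have hA : 0 ≤ A := h.nonneg
  have h2 := (ContinuousLinearMap.apply ℝ ℝ (Pi.single i 1 : V n)).norm_iteratedFDeriv_comp_left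
    (f := fderiv ℝ f) (x := x) (n := l) (N := ∞)
    (hf.fderiv_right (m := ∞) (by simp)).contDiffAt (by exact_mod_cast le_top)
  rw [norm_iteratedFDeriv_fderiv] at h2
  have h3 : ‖ContinuousLinearMap.apply ℝ ℝ (Pi.single i 1 : V n)‖ ≤ 1 := by
    refine ContinuousLinearMap.opNorm_le_bound _ zero_le_one fun L => ?_
    rw [ContinuousLinearMap.apply_apply, one_mul]
    refine (L.le_opNorm _).trans ?_
    rw [Pi.norm_single, norm_one, mul_one]
  calc ‖iteratedFDeriv ℝ l (pd i f) x‖ ≤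
        ‖ContinuousLinearMap.apply ℝ ℝ (Pi.single i 1 : V n)‖ * ‖iteratedFDeriv ℝ (l + 1) f x‖ := h2
    _ ≤ 1 * A := mul_le_mul h3 (h (l + 1) (by omega)) (norm_nonneg _) zero_le_one
    _ = A := one_mul A

theorem jp_mulA (k : ℕ) {a : V n → ℝ} (ha : ContDiff ℝ ∞ a) (hc : HasCompactSupport a) :
    ∃ C : ℝ, 0 ≤ C ∧ ∀ (f : V n → ℝ) (A : ℝ) (x : V n), ContDiff ℝ ∞ f → Jp k A f x →
      Jp k (C * A) (fun x => a x * f x) x := by
  obtain ⟨B, hB, hb⟩ := exists_bd k ha hc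
  refine ⟨2 ^ k * B, by positivity, fun f A x hf h l hl => ?_⟩
  have hA : 0 ≤ A := h.nonneg
  refine (norm_iteratedFDeriv_mul_le ha hf x (n := l) (by exact_mod_cast le_top)).trans ?_
  have h1 : ∑ i ∈ Finset.range (l + 1), (l.choose i : ℝ) * ‖iteratedFDeriv ℝ i a x‖ *
      ‖iteratedFDeriv ℝ (l - i) f x‖ ≤ ∑ i ∈ Finset.range (l + 1), (l.choose i : ℝ) * (B * A) := by
    refine Finset.sum_le_sum fun i hi => ?_
    rw [mul_assoc]
    refine mul_le_mul_of_nonneg_left ?_ (Nat.cast_nonneg _)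
    have hi' := Finset.mem_range.1 hi
    exact mul_le_mul (hb i (by omega) x) (h (l - i) (by omega)) (norm_nonneg _) (by linarith)
  refine h1.trans ?_
  rw [← Finset.sum_mul]
  have h2 : ∑ i ∈ Finset.range (l + 1), (l.choose i : ℝ) = 2 ^ l := by
    have := Nat.sum_range_choose l
    exact_mod_cast this
  rw [h2]
  have h3 : (2 : ℝ) ^ l ≤ 2 ^ k := pow_le_pow_right₀ (by norm_num) hl
  have h4 : 0 ≤ B * A := by positivity
  nlinarith

theorem jp_comp (k : ℕ) {T : V n → V n} (hT : ContDiff ℝ ∞ T) (hc : HasCompactSupport T) :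
    ∃ C : ℝ, 0 ≤ C ∧ ∀ (f : V n → ℝ) (A : ℝ) (x : V n), ContDiff ℝ ∞ f → Jp k A f (T x) →
      Jp k (C * A) (fun x => f (T x)) x := by
  obtain ⟨B, hB, hb⟩ := exists_bd k hT hc
  refine ⟨(k.factorial : ℝ) * B ^ k, by positivity, fun f A x hf h l hl => ?_⟩
  have hA : 0 ≤ A := h.nonneg
  have h1 := norm_iteratedFDeriv_comp_le (n := l) (N := ∞) hf hT (by exact_mod_cast le_top) x
    (C := A) (D := B) (fun i hi => h i (hi.trans hl))
    (fun i h1 hi => (hb i (hi.trans hl) x).trans (le_self_pow₀ hB (by omega)))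
  refine h1.trans ?_
  have h2 : (l.factorial : ℝ) ≤ k.factorial := by exact_mod_cast Nat.factorial_le hl
  have h3 : B ^ l ≤ B ^ k := pow_le_pow_right₀ hB hl
  calc (l.factorial : ℝ) * A * B ^ l ≤ (k.factorial : ℝ) * A * B ^ k := by gcongr
    _ = (k.factorial : ℝ) * B ^ k * A := by ring

/-! ## Pointwise bounded operators -/

/-- `L h` is smooth and its jet of order `k` at `y` is bounded by the jet of order `m` of `h` at
`T y`. -/
def PB (k m : ℕ) (T : V n → V n) (L : MF n → V n → ℝ) : Prop :=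
  ∃ C : ℝ, 0 ≤ C ∧ ∀ h : MF n, SmM h → ContDiff ℝ ∞ (L h) ∧ ∀ (y : V n) (b : ℝ), 0 ≤ b →
    (∀ i j, Jp m b (fun x => h x i j) (T y)) → Jp k (C * b) (L h) y

variable {T : V n → V n}

theorem PB.zero (k m : ℕ) : PB k m T (fun (_ : MF n) _ => (0 : ℝ)) := by
  refine ⟨0, le_rfl, fun h _ => ⟨contDiff_const, fun y b _ _ l _ => ?_⟩⟩
  have : iteratedFDeriv ℝ l (fun _ : V n => (0 : ℝ)) y = 0 := by
    rw [show (fun _ : V n => (0 : ℝ)) = 0 from rfl, iteratedFDeriv_zero]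
    rfl
  rw [this, norm_zero]
  simp

theorem PB.add {k m : ℕ} {L M : MF n → V n → ℝ} (hL : PB k m T L) (hM : PB k m T M) :
    PB k m T (fun s x => L s x + M s x) := by
  obtain ⟨C, hC, h⟩ := hL
  obtain ⟨D, hD, h'⟩ := hM
  refine ⟨C + D, by positivity, fun s hs => ⟨(h s hs).1.add (h' s hs).1, fun y b hb hj => ?_⟩⟩
  have := jp_add (h s hs).1 (h' s hs).1 ((h s hs).2 y b hb hj) ((h' s hs).2 y b hb hj)
  rwa [← add_mul] at this

theorem PB.sum {ι : Type*} (t : Finset ι) {k m : ℕ} {L : ι → MF n → V n → ℝ}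
    (hL : ∀ i, PB k m T (L i)) : PB k m T (fun s x => ∑ i ∈ t, L i s x) := by
  classical
  induction t using Finset.induction_on with
  | empty =>
    simp only [Finset.sum_empty]
    exact PB.zero k m
  | insert a t ha ih =>
    simp only [Finset.sum_insert ha]
    exact (hL a).add ih

theorem PB.mulA {k m : ℕ} {L : MF n → V n → ℝ} (hL : PB k m T L) {a : V n → ℝ}
    (ha : ContDiff ℝ ∞ a) (hc : HasCompactSupport a) : PB k m T (fun s x => a x * L s x) := by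
  obtain ⟨C, hC, h⟩ := hL
  obtain ⟨D, hD, h'⟩ := jp_mulA k ha hc
  refine ⟨D * C, by positivity, fun s hs => ⟨ha.mul (h s hs).1, fun y b hb hj => ?_⟩⟩
  have := h' _ _ y (h s hs).1 ((h s hs).2 y b hb hj)
  rwa [← mul_assoc] at this

theorem PB.pd {k m : ℕ} {L : MF n → V n → ℝ} (hL : PB (k + 1) m T L) (i : Fin n) :
    PB k m T (fun s => pd i (L s)) := by
  obtain ⟨C, hC, h⟩ := hL
  exact ⟨C, hC, fun s hs => ⟨XK.cd_pd (h s hs).1 i, fun y b hb hj =>
    jp_pd (h s hs).1 ((h s hs).2 y b hb hj) i⟩⟩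

theorem PB.base {k m : ℕ} (hk : k ≤ m) (hT : ContDiff ℝ ∞ T) (hc : HasCompactSupport T)
    (a b : Fin n) : PB k m T (fun s x => s (T x) a b) := by
  obtain ⟨C, hC, h⟩ := jp_comp k hT hc
  refine ⟨C, hC, fun s hs => ⟨(hs a b).comp hT, fun y c _ hj => ?_⟩⟩
  exact h (fun x => s x a b) c y (hs a b) fun l hl => hj a b l (hl.trans hk)

/-! ## The differences -/

section build

variable {χ χa ψ χ2 : V n → ℝ}

/-- The linear part of `Ht`. -/
def Hh (χa ψ χ2 : V n → ℝ) (i j : Fin n) (h : MF n) (y : V n) : ℝ :=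
  ∑ k, ∑ l, Ac χa ψ χ2 i j k l y * h (Tt χ2 y) k l

theorem Ht_sub (s₁ s₂ : MF n) (i j : Fin n) (y : V n) :
    Ht χa ψ χ2 i j s₂ y - Ht χa ψ χ2 i j s₁ y = Hh χa ψ χ2 i j (fun x => s₂ x - s₁ x) y := by
  unfold Ht Hh
  rw [← Finset.sum_sub_distrib]
  refine Finset.sum_congr rfl fun k _ => ?_
  rw [← Finset.sum_sub_distrib]
  refine Finset.sum_congr rfl fun l _ => ?_
  show _ = Ac χa ψ χ2 i j k l y * (s₂ (Tt χ2 y) k l - s₁ (Tt χ2 y) k l)
  ring

/-- The linear part of `vt`. -/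
def vh (χ χa ψ χ2 : V n → ℝ) (h : MF n) (y : V n) : ℝ :=
  -χ y * ∑ i, ∑ j, (b1 χ2 j y * pd i (Hh χa ψ χ2 i j h) y + b2 χ2 i j y * Hh χa ψ χ2 i j h y)

theorem Ht_cd (h : Cuts χ χa ψ χ2) {s : MF n} (hs : SmM s) (i j : Fin n) :
    ContDiff ℝ ∞ (Ht χa ψ χ2 i j s) :=
  ContDiff.sum fun k _ => ContDiff.sum fun l _ =>
    (Ac_cd h i j k l).mul (((hs k l).comp (Tt_cd h)).sub contDiff_const)

theorem vt_sub (h : Cuts χ χa ψ χ2) {s₁ s₂ : MF n} (h₁ : SmM s₁) (h₂ : SmM s₂) (y : V n) :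
    vt χ χa ψ χ2 s₂ y - vt χ χa ψ χ2 s₁ y = vh χ χa ψ χ2 (fun x => s₂ x - s₁ x) y := by
  have hpd : ∀ i j, pd i (Hh χa ψ χ2 i j (fun x => s₂ x - s₁ x)) y =
      pd i (Ht χa ψ χ2 i j s₂) y - pd i (Ht χa ψ χ2 i j s₁) y := by
    intro i j
    have e : Hh χa ψ χ2 i j (fun x => s₂ x - s₁ x) =
        fun y => Ht χa ψ χ2 i j s₂ y - Ht χa ψ χ2 i j s₁ y :=
      funext fun y => (Ht_sub s₁ s₂ i j y).symm
    rw [e, pd_sub ((Ht_cd h h₂ i j).differentiable (by simp) y)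
      ((Ht_cd h h₁ i j).differentiable (by simp) y)]
  unfold vt vh
  rw [← mul_sub, ← Finset.sum_sub_distrib]
  congr 1
  refine Finset.sum_congr rfl fun i _ => ?_
  rw [← Finset.sum_sub_distrib]
  refine Finset.sum_congr rfl fun j _ => ?_
  rw [hpd, ← Ht_sub]
  ring

theorem Hh_pb (h : Cuts χ χa ψ χ2) {k m : ℕ} (hk : k ≤ m) (i j : Fin n) :
    PB k m (Tt χ2) (Hh χa ψ χ2 i j) :=
  PB.sum _ fun a => PB.sum _ fun b =>
    (PB.base hk (Tt_cd h) (Tt_c h) a b).mulA (Ac_cd h i j a b) (Ac_c h i j a b)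

theorem vh_pb (h : Cuts χ χa ψ χ2) {k m : ℕ} (hk : k + 1 ≤ m) :
    PB k m (Tt χ2) (vh χ χa ψ χ2) :=
  PB.mulA (PB.sum _ fun i => PB.sum _ fun j =>
    (((Hh_pb h hk i j).pd i).mulA (b1_cd h j) (b1_c h j)).add
      ((Hh_pb h (by omega : k ≤ m) i j).mulA (b2_cd h i j) (b2_c h i j))) h.s.neg
    (h.c.comp_left (g := fun t : ℝ => -t) neg_zero)

/-- The linear part vanishes where `h ∘ iv` vanishes. -/
theorem Hh_zero (h : Cuts χ χa ψ χ2) {d : MF n} {y : V n} (hd : y ≠ 0 → d (iv y) = 0)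
    (i j : Fin n) : Hh χa ψ χ2 i j d y = 0 := by
  refine Finset.sum_eq_zero fun k _ => Finset.sum_eq_zero fun l _ => ?_
  by_cases hA : Ac χa ψ χ2 i j k l y = 0
  · rw [hA, zero_mul]
  · have h3 := Ac_ne h hA
    have hy : y ≠ 0 := by
      intro h0
      rw [h0] at h3
      have h2 : HY.sq (0 : V n) = 0 := by simp [sq_def]
      rw [h2] at h3
      norm_num at h3
    rw [Tt_eq h h3.1 h3.2, hd hy]
    show _ * (0 : ℝ) = 0
    rw [mul_zero]

end build

/-! ## The closed unit ball and its exterior -/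

theorem sq_smul (c : ℝ) (x : V n) : HY.sq (c • x) = c ^ 2 * HY.sq x := by
  rw [sq_def, sq_def, Finset.mul_sum]
  refine Finset.sum_congr rfl fun j _ => ?_
  show (c * x j) ^ 2 = _
  ring

theorem zero_in {f : V n → ℝ} (hf : Continuous f) (h : ∀ x, HY.sq x < 1 → f x = 0) {x : V n}
    (hx : HY.sq x ≤ 1) : f x = 0 := by
  have h1 : Tendsto (fun t : ℝ => f (t • x)) (𝓝[<] 1) (𝓝 (f ((1 : ℝ) • x))) :=
    ((hf.comp (continuous_id.smul continuous_const)).tendsto (1 : ℝ)).mono_left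
      nhdsWithin_le_nhds
  have h2 : Tendsto (fun t : ℝ => f (t • x)) (𝓝[<] 1) (𝓝 0) := by
    refine tendsto_const_nhds.congr' ?_
    have h3 : ∀ᶠ t : ℝ in 𝓝[<] 1, 0 < t :=
      (nhdsWithin_le_nhds : 𝓝[<] (1 : ℝ) ≤ 𝓝 1) (lt_mem_nhds one_pos)
    filter_upwards [self_mem_nhdsWithin, h3] with t ht ht0
    refine (h _ ?_).symm
    rw [sq_smul]
    have ht1 : t < 1 := ht
    have h4 : t ^ 2 < 1 := by nlinarith
    have h5 := sq_nn x
    nlinarith
  have h3 := tendsto_nhds_unique h1 h2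
  rwa [one_smul] at h3

theorem zero_out {f : V n → ℝ} (hf : Continuous f) (h : ∀ x, 1 < HY.sq x → f x = 0) {x : V n}
    (hx : 1 ≤ HY.sq x) : f x = 0 := by
  have h1 : Tendsto (fun t : ℝ => f (t • x)) (𝓝[>] 1) (𝓝 (f ((1 : ℝ) • x))) :=
    ((hf.comp (continuous_id.smul continuous_const)).tendsto (1 : ℝ)).mono_left
      nhdsWithin_le_nhds
  have h2 : Tendsto (fun t : ℝ => f (t • x)) (𝓝[>] 1) (𝓝 0) := by
    refine tendsto_const_nhds.congr' ?_
    filter_upwards [self_mem_nhdsWithin] with t ht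
    refine (h _ ?_).symm
    rw [sq_smul]
    have ht1 : 1 < t := ht
    have h4 : 1 < t ^ 2 := by nlinarith
    nlinarith
  have h3 := tendsto_nhds_unique h1 h2
  rwa [one_smul] at h3

end Vale.Agent.P088.HY.H437.Kel
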