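import Vale.Agent.P088.R2.H437.IVD

/-!
# P088, stage 3: the common extension of two tensors in the inverted chart, core theorems
-/

open MeasureTheory Set Filter Topology
open scoped ContDiff Matrix

noncomputable section

namespace Vale.Agent.P088.HY.H437.Kel

open Vale.Agent.P088.LR Vale.Agent.P088.HY Vale.Agent.P088.HY.T3

variable {n : ℕ}

/-- The hypotheses on one tensor in the chart. -/
structure Ch (m : ℕ) (ε : ℝ) (s : MF n) : Prop where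
  sm : SmM s
  sy : ∀ x, (s x).IsSymm
  cl : ∀ i j, Cl m ε (fun x => s x i j - (1 : Matrix (Fin n) (Fin n) ℝ) i j)
  of : ∀ x ∉ Eb (0 : V n) 32, s x = 1

section build

variable {χ χa ψ χ2 : V n → ℝ}

theorem st_ap (s : MF n) (y : V n) (i j : Fin n) : st χ χa ψ χ2 s y i j =
    (1 : Matrix (Fin n) (Fin n) ℝ) i j + χ y * Ht χa ψ χ2 i j s y := rfl

theorem st_sm (h : Cuts χ χa ψ χ2) {s : MF n} (hs : SmM s) : SmM (st χ χa ψ χ2 s) :=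
  fun i j => contDiff_const.add (h.s.mul (Ht_cd h hs i j))

theorem st_sy {s : MF n} (hy : ∀ x, (s x).IsSymm) (y : V n) : (st χ χa ψ χ2 s y).IsSymm := by
  ext i j
  rw [Matrix.transpose_apply, st_ap, st_ap, Ht_symm hy j i y, Matrix.one_apply, Matrix.one_apply]
  by_cases hij : i = j
  · subst hij; rfl
  · rw [if_neg hij, if_neg (fun h' => hij h'.symm)]

theorem vt_cd (h : Cuts χ χa ψ χ2) {s : MF n} (hs : SmM s) : ContDiff ℝ ∞ (vt χ χa ψ χ2 s) :=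
  h.s.neg.mul (ContDiff.sum fun i _ => ContDiff.sum fun j _ =>
    ((b1_cd h j).mul (XK.cd_pd (Ht_cd h hs i j) i)).add ((b2_cd h i j).mul (Ht_cd h hs i j)))

theorem not_Eb {y : V n} {r : ℝ} : y ∉ Eb (0 : V n) r ↔ r ^ 2 ≤ HY.sq y := by
  constructor
  · intro h
    by_contra hlt
    refine h ?_
    show HY.sq (y - 0) < r ^ 2
    rw [sub_zero]
    exact not_le.1 hlt
  · intro h h'
    have h1 : HY.sq (y - 0) < r ^ 2 := h'
    rw [sub_zero] at h1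
    linarith

theorem st_of (h : Cuts χ χa ψ χ2) (s : MF n) {y : V n} (hy : y ∉ Eb (0 : V n) 2) :
    st χ χa ψ χ2 s y = 1 := by
  ext i j
  rw [st_ap, h.zero y (not_Eb.1 hy), zero_mul, add_zero]

theorem vt_of (h : Cuts χ χa ψ χ2) (s : MF n) {y : V n} (hy : y ∉ Eb (0 : V n) 2) :
    vt χ χa ψ χ2 s y = 0 := by
  unfold vt
  rw [h.zero y (not_Eb.1 hy), neg_zero, zero_mul]

theorem st_ks (h : Cuts χ χa ψ χ2) {s : MF n} (hs1 : ∀ x ∉ Eb (0 : V n) 32, s x = 1) {y : V n}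
    (hy : y ∈ Eb (0 : V n) (5 / 4)) (h0 : y ≠ 0) : st χ χa ψ χ2 s y = ks s y := by
  have h3 : HY.sq y < (5 / 4) ^ 2 := by
    have h4 : HY.sq (y - 0) < (5 / 4) ^ 2 := hy
    rwa [sub_zero] at h4
  ext i j
  rw [st_ap, h.one y h3.le, Ht_eq h hs1 h0 (h3.le.trans (by norm_num))]
  ring

theorem vt_kv (hn : 3 ≤ n) (h : Cuts χ χa ψ χ2) {s : MF n} (hs : SmM s)
    (hs1 : ∀ x ∉ Eb (0 : V n) 32, s x = 1) {y : V n}
    (hy : y ∈ Eb (0 : V n) (5 / 4)) (h0 : y ≠ 0) : vt χ χa ψ χ2 s y = kv s y := by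
  have h3 : HY.sq y < (5 / 4) ^ 2 := by
    have h4 : HY.sq (y - 0) < (5 / 4) ^ 2 := hy
    rwa [sub_zero] at h4
  exact vt_eq hn h hs hs1 h0 h3

/-- The bounds of `st s - 1` and `vt s`. -/
theorem st_cl (h : Cuts χ χa ψ χ2) (K : ℕ) : ∃ C : ℝ, 0 ≤ C ∧ ∀ (s : MF n) (ε : ℝ), SmM s →
    0 ≤ ε → (∀ i j, Cl (K + 1) ε (fun x => s x i j - (1 : Matrix (Fin n) (Fin n) ℝ) i j)) →
    (∀ i j, Cl K (C * ε) (fun y => st χ χa ψ χ2 s y i j - (1 : Matrix (Fin n) (Fin n) ℝ) i j)) ∧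
    Cl K (C * ε) (vt χ χa ψ χ2 s) := by
  have hb : ∀ i j, BO K (K + 1) (fun s y => χ y * Ht χa ψ χ2 i j s y) := fun i j =>
    (Ht_bo h (by omega : K ≤ K + 1) i j).mulA h.s h.c
  have hv : BO K (K + 1) (vt χ χa ψ χ2) := vt_bo h le_rfl
  choose C hC0 hC using hb
  obtain ⟨D, hD0, hD⟩ := hv
  have hs0 : 0 ≤ ∑ i, ∑ j, C i j :=
    Finset.sum_nonneg fun i _ => Finset.sum_nonneg fun j _ => hC0 i j
  refine ⟨(∑ i, ∑ j, C i j) + D, by positivity, fun s ε hs hε hcl => ⟨fun i j => ?_, ?_⟩⟩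
  · have hin : Inp (K + 1) ε s := ⟨hs, hε, hcl⟩
    have h3 : (fun y => st χ χa ψ χ2 s y i j - (1 : Matrix (Fin n) (Fin n) ℝ) i j) =
        fun y => χ y * Ht χa ψ χ2 i j s y := by
      funext y
      rw [st_ap]
      ring
    rw [h3]
    refine cl_le' (hC i j s ε hin).2 (mul_le_mul_of_nonneg_right ?_ hε)
    have h1 : C i j ≤ ∑ j, C i j :=
      Finset.single_le_sum (f := fun j => C i j) (fun j _ => hC0 i j) (Finset.mem_univ j)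
    have h2 : ∑ j, C i j ≤ ∑ i, ∑ j, C i j :=
      Finset.single_le_sum (f := fun i => ∑ j, C i j)
        (fun i _ => Finset.sum_nonneg fun j _ => hC0 i j) (Finset.mem_univ i)
    linarith
  · have hin : Inp (K + 1) ε s := ⟨hs, hε, hcl⟩
    refine cl_le' (hD s ε hin).2 (mul_le_mul_of_nonneg_right ?_ hε)
    linarith

/-- The bounds of the differences, pointwise. -/
theorem st_dif (hn : 0 < n) (h : Cuts χ χa ψ χ2) (K : ℕ) : ∃ C : ℝ, 0 ≤ C ∧ ∀ (s₁ s₂ : MF n), SmM s₁ →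
    SmM s₂ → ∀ (y : V n) (b : ℝ), (1 / 40) ^ 2 ≤ HY.sq y → HY.sq y ≤ 3 ^ 2 →
    (∀ i j, ∀ l ≤ K + 1, ‖iteratedFDeriv ℝ l (fun x => s₂ x i j - s₁ x i j) (iv y)‖ ≤ b) →
    (∀ i j, ∀ l ≤ K, ‖iteratedFDeriv ℝ l (fun x => st χ χa ψ χ2 s₂ x i j - st χ χa ψ χ2 s₁ x i j)
      y‖ ≤ C * b) ∧
    ∀ l ≤ K, ‖iteratedFDeriv ℝ l (fun x => vt χ χa ψ χ2 s₂ x - vt χ χa ψ χ2 s₁ x) y‖ ≤ C * b := by
  have hb : ∀ i j, PB K (K + 1) (Tt χ2) (fun d y => χ y * Hh χa ψ χ2 i j d y) := fun i j =>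
    (Hh_pb h (by omega : K ≤ K + 1) i j).mulA h.s h.c
  have hv : PB K (K + 1) (Tt χ2) (vh χ χa ψ χ2) := vh_pb h le_rfl
  choose C hC0 hC using hb
  obtain ⟨D, hD0, hD⟩ := hv
  have hs0 : 0 ≤ ∑ i, ∑ j, C i j :=
    Finset.sum_nonneg fun i _ => Finset.sum_nonneg fun j _ => hC0 i j
  refine ⟨(∑ i, ∑ j, C i j) + D + 1, by positivity, fun s₁ s₂ h₁ h₂ y b y1 y2 hj => ?_⟩
  have hd : SmM (fun x => s₂ x - s₁ x) := fun i j => (h₂ i j).sub (h₁ i j)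
  rw [← Tt_eq h y1 y2] at hj
  have hjp : ∀ i j, Jp (K + 1) b (fun x => (s₂ x - s₁ x) i j) (Tt χ2 y) := hj
  have i₀ : Fin n := ⟨0, hn⟩
  have hb0 : 0 ≤ b := (hjp i₀ i₀).nonneg
  constructor
  · intro i j l hl
    have h3 : (fun x => st χ χa ψ χ2 s₂ x i j - st χ χa ψ χ2 s₁ x i j) =
        fun y => χ y * Hh χa ψ χ2 i j (fun x => s₂ x - s₁ x) y := by
      funext y
      rw [st_ap, st_ap, ← Ht_sub]
      ring
    rw [h3]
    refine ((hC i j _ hd).2 y b hb0 hjp l hl).trans (mul_le_mul_of_nonneg_right ?_ hb0)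
    have h1 : C i j ≤ ∑ j, C i j :=
      Finset.single_le_sum (f := fun j => C i j) (fun j _ => hC0 i j) (Finset.mem_univ j)
    have h2 : ∑ j, C i j ≤ ∑ i, ∑ j, C i j :=
      Finset.single_le_sum (f := fun i => ∑ j, C i j)
        (fun i _ => Finset.sum_nonneg fun j _ => hC0 i j) (Finset.mem_univ i)
    linarith
  · intro l hl
    have h3 : (fun x => vt χ χa ψ χ2 s₂ x - vt χ χa ψ χ2 s₁ x) =
        vh χ χa ψ χ2 (fun x => s₂ x - s₁ x) := funext fun y => vt_sub h h₁ h₂ y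
    rw [h3]
    refine ((hD _ hd).2 y b hb0 hjp l hl).trans (mul_le_mul_of_nonneg_right ?_ hb0)
    linarith

/-- The extensions agree for `1 ≤ |y|` if the tensors agree in the unit ball. -/
theorem st_same (h : Cuts χ χa ψ χ2) {s₁ s₂ : MF n} (h₁ : SmM s₁) (h₂ : SmM s₂)
    (heq : ∀ x ∈ Eb (0 : V n) 1, s₂ x = s₁ x) {y : V n} (hy : 1 ≤ HY.sq y) :
    st χ χa ψ χ2 s₂ y = st χ χa ψ χ2 s₁ y ∧ vt χ χa ψ χ2 s₂ y = vt χ χa ψ χ2 s₁ y := by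
  have hd : SmM (fun x => s₂ x - s₁ x) := fun i j => (h₂ i j).sub (h₁ i j)
  have hcl : ∀ x : V n, HY.sq x ≤ 1 → s₂ x - s₁ x = 0 := by
    intro x hx
    ext i j
    refine zero_in (f := fun x => (s₂ x - s₁ x) i j) (hd i j).continuous (fun z hz => ?_) hx
    have h3 : z ∈ Eb (0 : V n) 1 := by
      show HY.sq (z - 0) < 1 ^ 2
      rw [sub_zero, one_pow]
      exact hz
    show (s₂ z - s₁ z) i j = 0
    rw [heq z h3, sub_self]
    rfl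
  have hH : ∀ i j (z : V n), 1 ≤ HY.sq z → Hh χa ψ χ2 i j (fun x => s₂ x - s₁ x) z = 0 := by
    intro i j z hz
    refine Hh_zero h (fun hz0 => hcl _ ?_) i j
    rw [sq_iv hz0]
    exact inv_le_one_of_one_le₀ hz
  constructor
  · ext i j
    have h3 := Ht_sub (χa := χa) (ψ := ψ) (χ2 := χ2) s₁ s₂ i j y
    rw [hH i j y hy] at h3
    rw [st_ap, st_ap]
    have h4 : Ht χa ψ χ2 i j s₂ y = Ht χa ψ χ2 i j s₁ y := by linarith
    rw [h4]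
  · have hc : Continuous (vh χ χa ψ χ2 (fun x => s₂ x - s₁ x)) := by
      have e : vh χ χa ψ χ2 (fun x => s₂ x - s₁ x) =
          fun y => vt χ χa ψ χ2 s₂ y - vt χ χa ψ χ2 s₁ y :=
        funext fun y => (vt_sub h h₁ h₂ y).symm
      rw [e]
      exact ((vt_cd h h₂).sub (vt_cd h h₁)).continuous
    have h3 : vh χ χa ψ χ2 (fun x => s₂ x - s₁ x) y = 0 := by
      refine zero_out hc (fun z hz => ?_) hy
      have hev : ∀ i j, Hh χa ψ χ2 i j (fun x => s₂ x - s₁ x) =ᶠ[𝓝 z] fun _ => 0 := by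
        intro i j
        have e1 : ∀ᶠ x in 𝓝 z, 1 < HY.sq x := (isOpen_lt continuous_const sq_cont).mem_nhds hz
        filter_upwards [e1] with x hx
        exact hH i j x hx.le
      unfold vh
      have h5 : ∀ i j, b1 χ2 j z * pd i (Hh χa ψ χ2 i j (fun x => s₂ x - s₁ x)) z +
          b2 χ2 i j z * Hh χa ψ χ2 i j (fun x => s₂ x - s₁ x) z = 0 := by
        intro i j
        rw [pd_ev (hev i j), pd_const, hH i j z hz.le]
        ring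
      rw [Finset.sum_congr rfl fun i _ => Finset.sum_congr rfl fun j _ => h5 i j]
      simp
    have h6 := vt_sub h h₁ h₂ y
    rw [h3] at h6
    linarith

/-- **The core of the extension**, with given cut-offs. -/
theorem ext_core (hn : 3 ≤ n) (h : Cuts χ χa ψ χ2) (K : ℕ) : ∃ C : ℝ, 0 < C ∧
    ∀ (ε : ℝ) (s₁ s₂ : MF n), 0 ≤ ε → Ch (K + 1) ε s₁ → Ch (K + 1) ε s₂ →
    (∀ x ∈ Eb (0 : V n) 1, s₂ x = s₁ x) →
    (∀ s, (s = s₁ ∨ s = s₂) → SmM (st χ χa ψ χ2 s) ∧ ContDiff ℝ ∞ (vt χ χa ψ χ2 s) ∧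
      (∀ y, (st χ χa ψ χ2 s y).IsSymm) ∧
      (∀ i j, Cl K (C * ε) (fun y => st χ χa ψ χ2 s y i j -
        (1 : Matrix (Fin n) (Fin n) ℝ) i j)) ∧ Cl K (C * ε) (vt χ χa ψ χ2 s) ∧
      (∀ y ∉ Eb (0 : V n) 2, st χ χa ψ χ2 s y = 1 ∧ vt χ χa ψ χ2 s y = 0) ∧
      (∀ y ∈ Eb (0 : V n) (5 / 4), y ≠ 0 → st χ χa ψ χ2 s y = ks s y ∧
        vt χ χa ψ χ2 s y = kv s y)) ∧
    (∀ y, 1 ≤ HY.sq y → st χ χa ψ χ2 s₂ y = st χ χa ψ χ2 s₁ y ∧
      vt χ χa ψ χ2 s₂ y = vt χ χa ψ χ2 s₁ y) ∧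
    ∀ (y : V n) (b : ℝ), (1 / 40) ^ 2 ≤ HY.sq y → HY.sq y ≤ 3 ^ 2 →
      (∀ i j, ∀ l ≤ K + 1, ‖iteratedFDeriv ℝ l (fun x => s₂ x i j - s₁ x i j) (iv y)‖ ≤ b) →
      (∀ i j, ∀ l ≤ K, ‖iteratedFDeriv ℝ l
        (fun x => st χ χa ψ χ2 s₂ x i j - st χ χa ψ χ2 s₁ x i j) y‖ ≤ C * b) ∧
      ∀ l ≤ K, ‖iteratedFDeriv ℝ l (fun x => vt χ χa ψ χ2 s₂ x - vt χ χa ψ χ2 s₁ x) y‖ ≤
        C * b := by
  obtain ⟨C, hC0, hC⟩ := st_cl h K
  obtain ⟨D, hD0, hD⟩ := st_dif (by omega : 0 < n) h K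
  refine ⟨C + D + 1, by positivity, fun ε s₁ s₂ hε h₁ h₂ heq => ⟨fun s hs => ?_, fun y hy =>
    st_same h h₁.sm h₂.sm heq hy, fun y b y1 y2 hj => ?_⟩⟩
  · have hs' : Ch (K + 1) ε s := by
      rcases hs with rfl | rfl
      · exact h₁
      · exact h₂
    have h3 := hC s ε hs'.sm hε hs'.cl
    have hle : C * ε ≤ (C + D + 1) * ε := mul_le_mul_of_nonneg_right (by linarith) hε
    exact ⟨st_sm h hs'.sm, vt_cd h hs'.sm, st_sy hs'.sy, fun i j => cl_le' (h3.1 i j) hle,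
      cl_le' h3.2 hle, fun y hy => ⟨st_of h s hy, vt_of h s hy⟩,
      fun y hy h0 => ⟨st_ks h hs'.of hy h0, vt_kv hn h hs'.sm hs'.of hy h0⟩⟩
  · have h3 := hD s₁ s₂ h₁.sm h₂.sm y b y1 y2 hj
    have hb0 : 0 ≤ b := (norm_nonneg _).trans (hj ⟨0, by omega⟩ ⟨0, by omega⟩ 0 (Nat.zero_le _))
    have hle : D * b ≤ (C + D + 1) * b := mul_le_mul_of_nonneg_right (by linarith) hb0
    exact ⟨fun i j l hl => (h3.1 i j l hl).trans hle, fun l hl => (h3.2 l hl).trans hle⟩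

end build

/-- points of the annulus of the adapter -/
theorem ann_sq {y : V n} (hy : y ∈ T3.Ac n (1 / 22) (5 / 4)) :
    (1 / 40) ^ 2 ≤ HY.sq y ∧ HY.sq y ≤ 3 ^ 2 := by
  have h3 : √(HY.sq y) ^ 2 = HY.sq y := Real.sq_sqrt (sq_nn y)
  rw [← h3]
  obtain ⟨h1, h2⟩ := hy
  have h0 : 0 ≤ √(HY.sq y) := Real.sqrt_nonneg _
  constructor
  · exact pow_le_pow_left₀ (by norm_num) (le_trans (by norm_num) h1) 2
  · exact pow_le_pow_left₀ h0 (h2.trans (by norm_num)) 2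

end Vale.Agent.P088.HY.H437.Kel
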