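import Vale.Agent.P088.R2.H437.P2A
import Vale.Agent.P088.R2.H404.Spec4
import Vale.Agent.P088.R2.H404.DI

/-!
# P088, stage 3, row P2: weighted solvability in the chart, for a convex level function in the
inverted chart
-/

open MeasureTheory Set Filter Topology
open scoped ContDiff Matrix

noncomputable section

namespace Vale.Agent.P088.HY.H437.Kel

open Vale.Agent.P088.LR Vale.Agent.P088.HY Vale.Agent.P088.HY.T3 Vale.Agent.P088.HY.T4

variable {n : ℕ}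

/-! ## The cut-off of the tensor -/

/-- `s` cut off: `1 + χ (s - 1)`. -/
def sc (χ : V n → ℝ) (s : MF n) : MF n := fun x => Matrix.of fun i j =>
  (1 : Matrix (Fin n) (Fin n) ℝ) i j + χ x * (s x i j - (1 : Matrix (Fin n) (Fin n) ℝ) i j)

theorem sc_ap (χ : V n → ℝ) (s : MF n) (x : V n) (i j : Fin n) : sc χ s x i j =
    (1 : Matrix (Fin n) (Fin n) ℝ) i j + χ x * (s x i j - (1 : Matrix (Fin n) (Fin n) ℝ) i j) := rfl

theorem sc_one {χ : V n → ℝ} {s : MF n} {x : V n} (h : χ x = 1) : sc χ s x = s x := by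
  ext i j
  rw [sc_ap, h]
  ring

theorem sc_zero {χ : V n → ℝ} {s : MF n} {x : V n} (h : χ x = 0) : sc χ s x = 1 := by
  ext i j
  rw [sc_ap, h]
  ring

theorem sc_sm {χ : V n → ℝ} (hχ : ContDiff ℝ ∞ χ) {s : MF n} (hs : SmM s) : SmM (sc χ s) :=
  fun i j => contDiff_const.add (hχ.mul ((hs i j).sub contDiff_const))

theorem sc_sy {χ : V n → ℝ} {s : MF n} (hs : ∀ x, (s x).IsSymm) (x : V n) :
    (sc χ s x).IsSymm := by
  ext i j
  rw [Matrix.transpose_apply, sc_ap, sc_ap, (hs x).apply i j]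
  rw [Matrix.one_apply, Matrix.one_apply]
  by_cases hij : i = j
  · subst hij; rfl
  · rw [if_neg hij, if_neg (fun h' => hij h'.symm)]

theorem cl_one {k : ℕ} (hk : 1 ≤ k) {A : ℝ} {f : V n → ℝ} (hf : ContDiff ℝ ∞ f) (h : Cl k A f)
    (i : Fin n) (x : V n) : |pd i f x| ≤ A := by
  have h1 := cl_pd' (k := k - 1) hf (by rwa [show k - 1 + 1 = k by omega]) i 0 (Nat.zero_le _) x
  rwa [norm_iteratedFDeriv_zero, Real.norm_eq_abs] at h1

theorem cl_zero' {k : ℕ} {A : ℝ} {f : V n → ℝ} (h : Cl k A f) (x : V n) : |f x| ≤ A := by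
  have h1 := h 0 (Nat.zero_le _) x
  rwa [norm_iteratedFDeriv_zero, Real.norm_eq_abs] at h1

theorem pd_sub_c {f : V n → ℝ} (hf : ContDiff ℝ ∞ f) (c : ℝ) (i : Fin n) :
    pd i (fun x => f x - c) = pd i f := by
  funext x
  rw [pd_sub (hf.differentiable (by simp) x) (differentiableAt_const c), pd_const, sub_zero]

theorem Ldv_ev {s t : MF n} {f : V n → ℝ} {x : V n} (h : ∀ᶠ y in 𝓝 x, s y = t y) :
    Ldv s f x = Ldv t f x := by
  unfold Ldv
  refine Finset.sum_congr rfl fun i _ => ?_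
  refine pd_ev ?_ i
  filter_upwards [h] with y hy
  rw [hy]

theorem ao_sq {a b : ℝ} (ha : 0 < a) {x : V n} (hx : x ∈ Ao n a b) :
    a ^ 2 < HY.sq x ∧ HY.sq x < b ^ 2 := by
  obtain ⟨h1, h2⟩ := hx
  have h0 : 0 < √(HY.sq x) := ha.trans h1
  have h3 : √(HY.sq x) ^ 2 = HY.sq x := Real.sq_sqrt (sq_nn x)
  constructor
  · rw [← h3]
    exact pow_lt_pow_left₀ h1 ha.le (by norm_num)
  · rw [← h3]
    exact pow_lt_pow_left₀ h2 h0.le (by norm_num)

/-- **P2.** -/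
theorem rowP2 (hyp : RowHYP) : RowP2 := by
  intro n hn M σ₀ c₀ hM hσ hc
  obtain ⟨ε₁, ρ₀, hε₁, hρ₀, H⟩ := R2.H404.dirw hyp n hM hσ hc
  obtain ⟨C₁, hC₁, HK⟩ := rowKEL n hn 2
  -- the cut-off
  obtain ⟨χ, O₁, χs, χt, -, χk, χe, -⟩ := XK.ex_cut' (K := {y : V n | HY.sq y ≤ 24 ^ 2})
    (W := {y : V n | HY.sq y < 32 ^ 2}) (isClosed_le sq_cont continuous_const)
    (isOpen_lt sq_cont continuous_const)
    (fun y (hy : HY.sq y ≤ 24 ^ 2) => (show HY.sq y < 32 ^ 2 from lt_of_le_of_lt hy (by norm_num)))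
  have χc : HasCompactSupport χ := (isCompact_sq (32 ^ 2)).of_isClosed_subset (isClosed_tsupport _)
    (χt.trans fun y (hy : HY.sq y < 32 ^ 2) => (show HY.sq y ≤ 32 ^ 2 from hy.le))
  have χ1 : ∀ y, HY.sq y ≤ 24 ^ 2 → χ y = 1 := fun y hy => χe y (χk hy)
  have χ0 : ∀ y, 32 ^ 2 ≤ HY.sq y → χ y = 0 := fun y hy =>
    image_eq_zero_of_notMem_tsupport fun h' => not_lt.2 hy (χt h')
  obtain ⟨A, hA, HA⟩ := cl_mulA (n := n) (2 + 2) χs χc
  obtain ⟨ε, hε⟩ : ∃ ε : ℝ, ε = min 1 (min ε₁ M) / ((A + 1) * (C₁ + 1)) := ⟨_, rfl⟩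
  have hmn : 0 < min 1 (min ε₁ M) := lt_min one_pos (lt_min hε₁ hM)
  have hAC : 0 < (A + 1) * (C₁ + 1) := by positivity
  have hε0 : 0 < ε := by rw [hε]; positivity
  have hεe : ε * ((A + 1) * (C₁ + 1)) = min 1 (min ε₁ M) := by
    rw [hε]; field_simp
  have e0 : A * ε ≤ 1 := by
    have h1 : A * ε ≤ ε * ((A + 1) * (C₁ + 1)) := by nlinarith [mul_nonneg hA hC₁.le]
    exact h1.trans (hεe.le.trans (min_le_left _ _))
  have e1 : C₁ * (A * ε) ≤ min ε₁ M := by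
    have h1 : C₁ * (A * ε) ≤ ε * ((A + 1) * (C₁ + 1)) := by nlinarith [mul_nonneg hA hC₁.le]
    exact h1.trans (hεe.le.trans (min_le_right _ _))
  obtain ⟨J, hJ⟩ : ∃ J : ℝ, J = (n.factorial : ℝ) * (3 * 24 ^ 2) ^ n := ⟨_, rfl⟩
  obtain ⟨Bw, hBw⟩ : ∃ B : ℝ, B = ((5 / 4) ^ 2 : ℝ) ^ (n - 2) := ⟨_, rfl⟩
  obtain ⟨BF, hBF⟩ : ∃ B : ℝ, B = ((24 : ℝ) ^ 2) ^ (n - 2) * ((24 ^ 2) ^ 2) ^ 2 := ⟨_, rfl⟩
  have hJ0 : 0 ≤ J := by rw [hJ]; positivity
  have hBw0 : 0 ≤ Bw := by rw [hBw]; positivity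
  have hBF0 : 0 ≤ BF := by rw [hBF]; positivity
  refine ⟨2 + 2, ε, 1 + J * Bw * (16 / (σ₀ * c₀)) * (J * BF), ρ₀, hε0, ?_, ?_⟩
  · have : 0 ≤ J * Bw * (16 / (σ₀ * c₀)) * (J * BF) := by positivity
    linarith
  intro s hs hsy hcl hdv g hg O hO hOA ρ hρ hρ1
  have hρp : 0 < ρ := by linarith
  -- the domain
  have hOq : ∀ x ∈ O, (4 / 5) ^ 2 < HY.sq x ∧ HY.sq x < 24 ^ 2 := fun x hx =>
    ao_sq (by norm_num) (hOA hx)
  have hO0 : ∀ x ∈ O, x ≠ 0 := by
    intro x hx h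
    have h1 := (hOq x hx).1
    rw [h] at h1
    have h2 : HY.sq (0 : V n) = 0 := by simp [sq_def]
    rw [h2] at h1
    norm_num at h1
  obtain ⟨O', hO'⟩ : ∃ O' : Set (V n), O' = iv '' O := ⟨_, rfl⟩
  have hO'o : IsOpen O' := by rw [hO']; exact isOpen_img hO hO0
  have hO'0 : ∀ y ∈ O', y ≠ 0 := by
    intro y hy
    rw [hO'] at hy
    exact ((mem_img hO0).1 hy).1
  have hO'i : ∀ y ∈ O', iv y ∈ O := by
    intro y hy
    rw [hO'] at hy
    exact ((mem_img hO0).1 hy).2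
  have hOO : O = iv '' O' := by rw [hO', iv_img hO0]
  have hO'q : ∀ y ∈ O', HY.sq y < (5 / 4) ^ 2 ∧ (HY.sq y)⁻¹ ≤ 24 ^ 2 := by
    intro y hy
    have h1 := hOq _ (hO'i y hy)
    rw [sq_iv (hO'0 y hy)] at h1
    refine ⟨?_, h1.2.le⟩
    have h2 := sq_pos (hO'0 y hy)
    have h3 := (lt_inv_comm₀ (by norm_num) h2).1 h1.1
    exact h3.trans_le (by norm_num)
  have hO'E : O' ⊆ Eb (0 : V n) (5 / 4) := by
    intro y hy
    show HY.sq (y - 0) < _
    rw [sub_zero]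
    exact (hO'q y hy).1
  -- the transformed tensor
  have hs' := sc_sm χs hs
  have hsy' : ∀ x, (sc χ s x).IsSymm := sc_sy hsy
  have hcl' : ∀ i j, Cl (2 + 2) (A * ε) (fun x => sc χ s x i j -
      (1 : Matrix (Fin n) (Fin n) ℝ) i j) := by
    intro i j
    have h1 : (fun x => sc χ s x i j - (1 : Matrix (Fin n) (Fin n) ℝ) i j) =
        fun x => χ x * (fun x => s x i j - (1 : Matrix (Fin n) (Fin n) ℝ) i j) x := by
      funext x
      rw [sc_ap]
      ring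
    rw [h1]
    exact HA _ _ ((hs i j).sub contDiff_const) (hcl i j)
  obtain ⟨⟨s', v', hs's, hv's, hs'y, hs'e, hs'c, hv'c, -⟩, HKi⟩ := HK (sc χ s) (A * ε) hs' hsy'
    (by positivity) e0 hcl' (fun x hx => sc_zero (χ0 x (by
      by_contra h
      refine hx ?_
      show HY.sq (x - 0) < _
      rw [sub_zero]
      exact not_le.1 h)))
  have hle1 : C₁ * (A * ε) ≤ ε₁ := e1.trans (min_le_left _ _)
  have hleM : C₁ * (A * ε) ≤ M := e1.trans (min_le_right _ _)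
  have hCW : R2.H404.CW O' ε₁ M σ₀ c₀ s' g := by
    have hsub : ∀ i j k, pd k (fun y => s' y i j) =
        pd k (fun y => s' y i j - (1 : Matrix (Fin n) (Fin n) ℝ) i j) := fun i j k =>
      (pd_sub_c (hs's i j) _ k).symm
    have hsm' : ∀ i j, ContDiff ℝ ∞ (fun y => s' y i j - (1 : Matrix (Fin n) (Fin n) ℝ) i j) :=
      fun i j => (hs's i j).sub contDiff_const
    refine ⟨fun i j => (hs's i j).contDiffOn, fun x _ i j => (hs'y x).apply j i, ?_, ?_, ?_,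
      hg.sm.contDiffOn, fun x hx => hg.g1 x (hO'E hx), fun x hx => hg.g2 x (hO'E hx),
      fun x hx => hg.g3 x (hO'E hx), fun x hx => hg.gr x (hO'E hx), fun x hx ξ => ?_⟩
    · intro x _ i j
      exact (cl_zero' (hs'c i j) x).trans hle1
    · intro x _ k i j
      show |pd k (fun y => s' y i j) x| ≤ _
      rw [hsub i j k]
      exact (cl_one (by norm_num) (hsm' i j) (hs'c i j) k x).trans hle1
    · intro x _ l k i j
      show |pd l (pd k (fun y => s' y i j)) x| ≤ _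
      rw [hsub i j k]
      exact (cl_one (by norm_num) (XK.cd_pd (hsm' i j) k) (cl_pd' (hsm' i j) (hs'c i j) k) l x).trans
        hle1
    · refine (hg.gc x (hO'E hx) ξ).trans (le_of_eq ?_)
      exact Finset.sum_congr rfl fun i _ => Finset.sum_congr rfl fun j _ => by
        show ξ i * ξ j * pd i (pd j g) x = pd i (pd j g) x * ξ i * ξ j
        ring
  intro F hF hFi
  -- the transformed right hand side
  obtain ⟨F', hF'⟩ : ∃ F' : V n → ℝ, F' = fun y => nw n y * (HY.sq y ^ 2)⁻¹ * F (iv y) := ⟨_, rfl⟩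
  have hF's : ContDiffOn ℝ ∞ F' O' := by
    rw [hF']
    intro y hy
    have h0 := hO'0 y hy
    have h1 : ContDiffAt ℝ ∞ F (iv y) := hF.contDiffAt (hO.mem_nhds (hO'i y hy))
    exact (((cd_nw h0).mul (cd_invpow 2 h0)).mul (h1.comp y (cd_iv h0))).contDiffWithinAt
  have hgc : Continuous fun y => Real.exp (-(2 * ρ * g y)) :=
    Real.continuous_exp.comp (continuous_const.mul hg.sm.continuous).neg
  have c1 := cov hO hO0 (r := 24 ^ 2) (fun x hx => by
      rw [inv_le_comm₀ (sq_pos (hO0 x hx)) (by norm_num)]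
      exact le_trans (by norm_num) (hOq x hx).1.le)
    (g := fun y => F' y ^ 2 * Real.exp (-(2 * ρ * g y)))
    (h := fun x => F x ^ 2 * Real.exp (-(2 * ρ * g (iv x)))) (A := BF)
    (by
      rw [← hO']
      exact (hF's.continuousOn.pow 2).mul hgc.continuousOn)
    (fun y _ => mul_nonneg (_root_.sq_nonneg _) (Real.exp_pos _).le) hFi (fun x hx => by
      have h0 := hO0 x hx
      have hq := sq_pos h0
      have h1 : F' (iv x) = (nw n x)⁻¹ * HY.sq x ^ 2 * F x := by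
        rw [hF']
        show nw n (iv x) * (HY.sq (iv x) ^ 2)⁻¹ * F (iv (iv x)) = _
        rw [nw_iv h0, sq_iv h0, iv_iv h0, inv_pow, inv_inv]
      have h2 : (nw n x)⁻¹ ^ 2 = HY.sq x ^ (n - 2) := by
        rw [inv_pow, nw_sq h0, inv_inv]
      show F' (iv x) ^ 2 * Real.exp (-(2 * ρ * g (iv x))) ≤ _
      rw [h1, ← mul_assoc, mul_pow, mul_pow, h2]
      refine mul_le_mul_of_nonneg_right ?_ (Real.exp_pos _).le
      refine mul_le_mul_of_nonneg_right ?_ (_root_.sq_nonneg _)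
      rw [hBF]
      have h3 := (hOq x hx).2.le
      gcongr)
  rw [← hO', ← hJ] at c1
  obtain ⟨u, hu1, hu2, hu3, hu4⟩ := H O' hO'o s' g v' hCW hv's.contDiffOn
    (fun x _ => (cl_zero' hv'c x).trans hleM) ρ hρ F' hF's c1.1
  have hws : ContDiffOn ℝ ∞ (fun x => nw n x * u (iv x)) O := by
    intro x hx
    have h0 := hO0 x hx
    have h1 : iv x ∈ O' := by rw [hO']; exact ⟨x, hx, rfl⟩
    have h2 : ContDiffAt ℝ ∞ u (iv x) := hu1.contDiffAt (hO'o.mem_nhds h1)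
    exact ((cd_nw h0).mul (h2.comp x (cd_iv h0))).contDiffWithinAt
  have c2 := cov hO'o hO'0 (r := 24 ^ 2) (fun y hy => (hO'q y hy).2)
    (g := fun x => (nw n x * u (iv x)) ^ 2 * Real.exp (-(2 * ρ * g (iv x))))
    (h := fun y => u y ^ 2 * Real.exp (-(2 * ρ * g y))) (A := Bw)
    (by
      rw [← hOO]
      exact (hws.continuousOn.pow 2).mul (hgc.comp_continuousOn fun x hx =>
        (da_iv (hO0 x hx)).continuousAt.continuousWithinAt))
    (fun y _ => mul_nonneg (_root_.sq_nonneg _) (Real.exp_pos _).le) hu3 (fun y hy => by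
      have h0 := hO'0 y hy
      have hq := sq_pos h0
      have h2 : (nw n y)⁻¹ ^ 2 = HY.sq y ^ (n - 2) := by
        rw [inv_pow, nw_sq h0, inv_inv]
      show (nw n (iv y) * u (iv (iv y))) ^ 2 * Real.exp (-(2 * ρ * g (iv (iv y)))) ≤ _
      rw [iv_iv h0, nw_iv h0, ← mul_assoc, mul_pow, h2]
      refine mul_le_mul_of_nonneg_right ?_ (Real.exp_pos _).le
      refine mul_le_mul_of_nonneg_right ?_ (_root_.sq_nonneg _)
      rw [hBw]
      have h3 := (hO'q y hy).1.le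
      gcongr)
  rw [← hOO, ← hJ] at c2
  refine ⟨fun x => nw n x * u (iv x), hws, fun x hx => ?_, c2.1, ?_⟩
  · -- the equation
    have h0 := hO0 x hx
    have hy : iv x ∈ O' := by rw [hO']; exact ⟨x, hx, rfl⟩
    have hk := HKi O' u hO'o hO'0 hu1 (iv x) hy
    rw [iv_iv h0] at hk
    have hn1 : ∀ᶠ z in 𝓝 (iv x), z ∈ Eb (0 : V n) (5 / 4) :=
      (isOpen_Eb 0 (5 / 4)).mem_nhds (hO'E hy)
    have hn2 : ∀ᶠ z in 𝓝 (iv x), z ≠ 0 := isOpen_ne.mem_nhds (iv_ne h0)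
    have hnear : ∀ᶠ z in 𝓝 (iv x), z ∈ Eb (0 : V n) (5 / 4) ∧ z ≠ 0 := hn1.and hn2
    have h1 : Ldv (ks (sc χ s)) u (iv x) = Ldv s' u (iv x) := Ldv_ev (by
      filter_upwards [hnear] with z hz
      exact (hs'e z hz.1 hz.2).1.symm)
    have h2 : kv (sc χ s) (iv x) = v' (iv x) := (hs'e _ (hO'E hy) (iv_ne h0)).2.symm
    have h3 : Ldv s' u (iv x) + v' (iv x) * u (iv x) = F' (iv x) := hu2 _ hy
    have h4 : Ldv (sc χ s) (fun x => nw n x * u (iv x)) x =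
        Ldv s (fun x => nw n x * u (iv x)) x := Ldv_ev (by
      have h5 : ∀ᶠ z in 𝓝 x, z ∈ O := hO.mem_nhds hx
      filter_upwards [h5] with z hz
      exact sc_one (χ1 z (hOq z hz).2.le))
    have h5 : R2.H404.Ld s (fun x => nw n x * u (iv x)) x = Lv s (fun x => nw n x * u (iv x)) x :=
      R2.H404.Ld_eq_Lv hO (fun i j => (hs i j).contDiffOn) (fun z hz j => hdv z (by
        show HY.sq (z - 0) < _
        rw [sub_zero]
        exact (hOq z hz).2) j) hws hx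
    rw [← h5]
    show Ldv s (fun x => nw n x * u (iv x)) x = F x
    rw [← h4, hk, h1, h2, h3, hF']
    show (nw n (iv x))⁻¹ * HY.sq (iv x) ^ 2 * (nw n (iv x) * (HY.sq (iv x) ^ 2)⁻¹ * F (iv (iv x))) =
      F x
    rw [iv_iv h0]
    have h6 := (nw_pos (iv_ne h0)).ne'
    have h7 := (sq_pos (iv_ne h0)).ne'
    field_simp
  · refine c2.2.trans ?_
    have k1 := mul_le_mul_of_nonneg_left hu4 (mul_nonneg hJ0 hBw0)
    have k2 : 16 / (σ₀ * c₀ * ρ ^ 3) * ∫ x in O', F' x ^ 2 * Real.exp (-(2 * ρ * g x)) ≤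
        16 / (σ₀ * c₀ * ρ ^ 3) * (J * BF * ∫ x in O, F x ^ 2 * Real.exp (-(2 * ρ * g (iv x)))) :=
      mul_le_mul_of_nonneg_left c1.2 (by positivity)
    have k3 := mul_le_mul_of_nonneg_left k2 (mul_nonneg hJ0 hBw0)
    refine k1.trans (k3.trans ?_)
    have k4 : 0 ≤ ∫ x in O, F x ^ 2 * Real.exp (-(2 * ρ * g (iv x))) :=
      integral_nonneg fun x => mul_nonneg (_root_.sq_nonneg _) (Real.exp_pos _).le
    have k5 : J * Bw * (16 / (σ₀ * c₀ * ρ ^ 3) * (J * BF *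
        ∫ x in O, F x ^ 2 * Real.exp (-(2 * ρ * g (iv x))))) =
        (J * Bw * (16 / (σ₀ * c₀)) * (J * BF)) / ρ ^ 3 *
          ∫ x in O, F x ^ 2 * Real.exp (-(2 * ρ * g (iv x))) := by
      field_simp
    rw [k5]
    refine mul_le_mul_of_nonneg_right ?_ k4
    gcongr
    linarith

end Vale.Agent.P088.HY.H437.Kel
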