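import Vale.Agent.P088.R2.H437.P2

/-!
# P088, stage 4, row P2N: weighted solvability of systems in the chart, for a convex level function
in the inverted chart
-/

open MeasureTheory Set Filter Topology
open scoped ContDiff Matrix

noncomputable section

namespace Vale.Agent.P088.HY.H437.Kel

open Vale.Agent.P088.LR Vale.Agent.P088.HY Vale.Agent.P088.HY.T3 Vale.Agent.P088.HY.T4

variable {n m : ℕ}

/-- Bounded smooth lower order coefficients on `O`, with all first derivatives of `B`. -/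
structure CoN (O : Set (V n)) (M : ℝ) (B : Fin m → Fin m → Fin n → V n → ℝ)
    (C : Fin m → Fin m → V n → ℝ) : Prop where
  bs : ∀ a b l, ContDiffOn ℝ ∞ (B a b l) O
  cs : ∀ a b, ContDiffOn ℝ ∞ (C a b) O
  b0 : ∀ a b l, ∀ x ∈ O, |B a b l x| ≤ M
  b1 : ∀ a b l k, ∀ x ∈ O, |pd k (B a b l) x| ≤ M
  c0 : ∀ a b, ∀ x ∈ O, |C a b x| ≤ M

/-- A smooth function off the origin is bounded on the annulus. -/
theorem bd_ann {f : V n → ℝ} (hf : ContDiffOn ℝ ∞ f {y : V n | y ≠ 0}) :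
    ∃ b : ℝ, 1 ≤ b ∧ ∀ y, (1 / 40) ^ 2 < HY.sq y → HY.sq y < 3 ^ 2 →
      |f y| ≤ b ∧ ∀ k, |pd k f y| ≤ b := by
  obtain ⟨χ, χa, ψ, χ2, h⟩ := exists_cuts (n := n)
  have h1 : ContDiff ℝ ∞ fun y => χ2 y * f y := XK.smx' isOpen_ne h.s2 h.t2 hf
  have h2 : HasCompactSupport fun y => χ2 y * f y := h.c2.mul_right
  obtain ⟨b, hb, hB⟩ := exists_bd 1 h1 h2
  refine ⟨b, hb, fun y h3 h4 => ?_⟩
  have hcl : Cl 1 b fun y => χ2 y * f y := hB
  have hev : ∀ᶠ z in 𝓝 y, χ2 z = 1 := by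
    have e1 : ∀ᶠ z in 𝓝 y, (1 / 40) ^ 2 < HY.sq z :=
      (isOpen_lt continuous_const sq_cont).mem_nhds h3
    have e2 : ∀ᶠ z in 𝓝 y, HY.sq z < 3 ^ 2 := (isOpen_lt sq_cont continuous_const).mem_nhds h4
    filter_upwards [e1, e2] with z k1 k2
    exact h.one2 z k1.le k2.le
  constructor
  · have h5 := cl_zero' hcl y
    rwa [h.one2 y h3.le h4.le, one_mul] at h5
  · intro k
    have h5 := cl_one le_rfl h1 hcl k y
    have h6 : pd k (fun y => χ2 y * f y) y = pd k f y := pd_ev (by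
      filter_upwards [hev] with z hz
      rw [hz, one_mul]) k
    rwa [h6] at h5

/-- A common bound for a finite family. -/
theorem bd_fam {ι : Type*} [Fintype ι] {f : ι → V n → ℝ}
    (hf : ∀ i, ContDiffOn ℝ ∞ (f i) {y : V n | y ≠ 0}) :
    ∃ b : ℝ, 1 ≤ b ∧ ∀ i y, (1 / 40) ^ 2 < HY.sq y → HY.sq y < 3 ^ 2 →
      |f i y| ≤ b ∧ ∀ k, |pd k (f i) y| ≤ b := by
  choose b hb hB using fun i => bd_ann (hf i)
  refine ⟨1 + ∑ i, b i, ?_, fun i y h1 h2 => ?_⟩
  · have : 0 ≤ ∑ i, b i := Finset.sum_nonneg fun i _ => by linarith [hb i]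
    linarith
  · have h3 : b i ≤ ∑ i, b i := Finset.single_le_sum (f := b) (fun j _ => by linarith [hb j])
      (Finset.mem_univ i)
    exact ⟨(hB i y h1 h2).1.trans (by linarith), fun k => ((hB i y h1 h2).2 k).trans (by linarith)⟩

theorem cdo_rfq (i j : Fin n) :
    ContDiffOn ℝ ∞ (fun y : V n => rf y i j * (HY.sq y ^ 1)⁻¹) {y : V n | y ≠ 0} := fun _ hy =>
  ((cd_rf i j hy).mul (cd_invpow 1 hy)).contDiffWithinAt

theorem cdo_iq2 : ContDiffOn ℝ ∞ (fun y : V n => (HY.sq y ^ 2)⁻¹) {y : V n | y ≠ 0} := fun _ hy =>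
  (cd_invpow 2 hy).contDiffWithinAt

theorem cdo_yq2 (l : Fin n) :
    ContDiffOn ℝ ∞ (fun y : V n => (((n - 2 : ℕ) : ℝ) * y l) * (HY.sq y ^ 2)⁻¹) {y : V n | y ≠ 0} :=
  fun _ hy => ((contDiffAt_const.mul (cd_coord l).contDiffAt).mul
    (cd_invpow 2 hy)).contDiffWithinAt

/-- The transformed first order coefficients. -/
def tB (B : Fin m → Fin m → Fin n → V n → ℝ) (a b : Fin m) (i : Fin n) (y : V n) : ℝ :=
  ∑ l, (rf y i l * (HY.sq y ^ 1)⁻¹) * B a b l (iv y)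

/-- The transformed zeroth order coefficients. -/
def tC (B : Fin m → Fin m → Fin n → V n → ℝ) (C : Fin m → Fin m → V n → ℝ) (v : V n → ℝ)
    (a b : Fin m) (y : V n) : ℝ :=
  ((if a = b then v y else 0) + (HY.sq y ^ 2)⁻¹ * C a b (iv y)) -
    ∑ l, ((((n - 2 : ℕ) : ℝ) * y l) * (HY.sq y ^ 2)⁻¹) * B a b l (iv y)

theorem abs_sum_n {f : Fin n → ℝ} {c : ℝ} (h : ∀ l, |f l| ≤ c) : |∑ l, f l| ≤ n * c := by
  refine (Finset.abs_sum_le_sum_abs _ _).trans ?_
  refine (Finset.sum_le_sum fun l _ => h l).trans ?_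
  rw [Finset.sum_const, Finset.card_univ, Fintype.card_fin, nsmul_eq_mul]

/-- Derivative of `w = |x|^{2-n} u(x/|x|²)` at `x = y / |y|²`. -/
theorem pd_w {u : V n → ℝ} {y : V n} (hy : y ≠ 0) (hu : DifferentiableAt ℝ u y) (l : Fin n) :
    pd l (fun x => nw n x * u (iv x)) (iv y) =
      (nw n y)⁻¹ * (∑ i, rf y i l * HY.sq y * pd i u y - ((n - 2 : ℕ) : ℝ) * y l * u y) := by
  have hx := iv_ne hy
  have hq := (sq_pos hy).ne'
  have hu' : DifferentiableAt ℝ u (iv (iv y)) := by rwa [iv_iv hy]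
  have h1 : DifferentiableAt ℝ (fun x => u (iv x)) (iv y) := hu'.comp _ (da_iv hx)
  rw [pd_mul (da_nw hx) h1, pd_comp_iv hx hu', pd_nw l hx, iv_iv hy, nw_iv hy, sq_iv hy, inv_inv,
    iv_eq, pow_one]
  have h2 : ∑ i, rf (iv y) i l * HY.sq y * pd i u y = ∑ i, rf y i l * HY.sq y * pd i u y :=
    Finset.sum_congr rfl fun i _ => by rw [rf_iv hy]
  rw [h2]
  obtain ⟨S, hS⟩ : ∃ S, S = ∑ i, rf y i l * HY.sq y * pd i u y := ⟨_, rfl⟩
  rw [← hS]
  field_simp
  ring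

theorem iv_ann {O : Set (V n)} (hOA : O ⊆ Ao n (4 / 5) 24) {y : V n} (hy : y ≠ 0)
    (h : iv y ∈ O) : (1 / 40) ^ 2 < HY.sq y ∧ HY.sq y < 3 ^ 2 ∧ HY.sq y < (5 / 4) ^ 2 ∧
      (HY.sq y)⁻¹ ≤ 24 ^ 2 := by
  have h1 := ao_sq (by norm_num) (hOA h)
  rw [sq_iv hy] at h1
  have h2 := sq_pos hy
  have h3 := (lt_inv_comm₀ (by norm_num) h2).1 h1.1
  have h4 := (inv_lt_comm₀ h2 (by norm_num)).1 h1.2
  refine ⟨lt_trans (by norm_num) h4, h3.trans (by norm_num), h3.trans_le (by norm_num), h1.2.le⟩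

/-- The pull-back of a function on `O`. -/
theorem cd_civ {O O' : Set (V n)} (hO : IsOpen O) (h0 : ∀ y ∈ O', y ≠ 0)
    (hi : ∀ y ∈ O', iv y ∈ O) {f : V n → ℝ} (hf : ContDiffOn ℝ ∞ f O) :
    ContDiffOn ℝ ∞ (fun y => f (iv y)) O' := fun y hy =>
  ((hf.contDiffAt (hO.mem_nhds (hi y hy))).comp y (cd_iv (h0 y hy))).contDiffWithinAt

/-- **P2N.** -/
theorem p2N (hyp : RowHYP) (n m : ℕ) (hn : 3 ≤ n) {M σ₀ c₀ : ℝ} (hM : 0 < M) (hσ : 0 < σ₀)
    (hc : 0 < c₀) : ∃ ε C ρ₀ : ℝ, 0 < ε ∧ 1 ≤ C ∧ 1 ≤ ρ₀ ∧ ∀ s : MF n, SmM s →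
    (∀ x, (s x).IsSymm) →
    (∀ i j, Cl 4 ε (fun x => s x i j - (1 : Matrix (Fin n) (Fin n) ℝ) i j)) →
    ∀ g : V n → ℝ, Lvl n M σ₀ c₀ g → ∀ O : Set (V n), IsOpen O → O ⊆ Ao n (4 / 5) 24 →
    ∀ (B : Fin m → Fin m → Fin n → V n → ℝ) (C0 : Fin m → Fin m → V n → ℝ), CoN O M B C0 →
    ∀ ρ : ℝ, ρ₀ ≤ ρ → ∀ F : Fin m → V n → ℝ, (∀ a, ContDiffOn ℝ ∞ (F a) O) →
      (∀ a, IntegrableOn (fun x => F a x ^ 2 * Real.exp (-(2 * ρ * g (iv x)))) O) →
      ∃ w : Fin m → V n → ℝ, (∀ a, ContDiffOn ℝ ∞ (w a) O) ∧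
        (∀ a, ∀ x ∈ O, R2.H404.Ls s B C0 w a x = F a x) ∧
        (∀ a, IntegrableOn (fun x => w a x ^ 2 * Real.exp (-(2 * ρ * g (iv x)))) O) ∧
        ∑ a, ∫ x in O, w a x ^ 2 * Real.exp (-(2 * ρ * g (iv x))) ≤
          C / ρ ^ 3 * ∑ a, ∫ x in O, F a x ^ 2 * Real.exp (-(2 * ρ * g (iv x))) := by
  obtain ⟨β1, hβ1, Hβ1⟩ := bd_fam (n := n) (ι := Fin n × Fin n)
    (f := fun p y => rf y p.1 p.2 * (HY.sq y ^ 1)⁻¹) (fun p => cdo_rfq p.1 p.2)
  obtain ⟨β2, hβ2, Hβ2⟩ := bd_ann (n := n) cdo_iq2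
  obtain ⟨β3, hβ3, Hβ3⟩ := bd_fam (n := n) (ι := Fin n)
    (f := fun l y => (((n - 2 : ℕ) : ℝ) * y l) * (HY.sq y ^ 2)⁻¹) (fun l => cdo_yq2 l)
  obtain ⟨M', hM'⟩ : ∃ M' : ℝ, M' = M + β2 * M + n * (β3 * M) + n * (β1 * M) +
      n * (β1 * (n * (β1 * M)) + M * β1) := ⟨_, rfl⟩
  have hnn : (0 : ℝ) ≤ n := by positivity
  have p1 : 0 ≤ β2 * M := by positivity
  have p2 : 0 ≤ n * (β3 * M) := by positivity
  have p3 : 0 ≤ n * (β1 * M) := by positivity
  have p4 : 0 ≤ n * (β1 * (n * (β1 * M)) + M * β1) := by positivity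
  have hM'0 : 0 < M' := by rw [hM']; linarith
  have hMM : M ≤ M' := by rw [hM']; linarith
  obtain ⟨ε₁, ρ₀, hε₁, hρ₀, H⟩ := R2.H404.dirwS hyp n m hM'0 hσ hc
  obtain ⟨C₁, hC₁, HK⟩ := rowKEL n hn 2
  -- the cut-off
  obtain ⟨χ, O₁, χs, χt, -, χk, χe, -⟩ := XK.ex_cut' (K := {y : V n | HY.sq y ≤ 24 ^ 2})
    (W := {y : V n | HY.sq y < 32 ^ 2}) (isClosed_le sq_cont continuous_const)
    (isOpen_lt sq_cont continuous_const)
    (fun y (hy : HY.sq y ≤ 24 ^ 2) => (show HY.sq y < 32 ^ 2 from lt_of_le_of_lt hy (by norm_num)))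
  have χc : HasCompactSupport χ := (isCompact_sq (32 ^ 2)).of_isClosed_subset (isClosed_tsupport _)
    (χt.trans fun y (hy : HY.sq y < 32 ^ 2) => (show HY.sq y ≤ 32 ^ 2 from hy.le))
  have χ1 : ∀ y, HY.sq y ≤ 24 ^ 2 → χ y = 1 := fun y hy => χe y (χk hy)
  have χ0 : ∀ y, 32 ^ 2 ≤ HY.sq y → χ y = 0 := fun y hy =>
    image_eq_zero_of_notMem_tsupport fun h' => not_lt.2 hy (χt h')
  obtain ⟨A, hA, HA⟩ := cl_mulA (n := n) (2 + 2) χs χc
  obtain ⟨ε, hε⟩ : ∃ ε : ℝ, ε = min 1 (min ε₁ M) / ((A + 1) * (C₁ + 1)) := ⟨_, rfl⟩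
  have hmn : 0 < min 1 (min ε₁ M) := lt_min one_pos (lt_min hε₁ hM)
  have hAC : 0 < (A + 1) * (C₁ + 1) := by positivity
  have hε0 : 0 < ε := by rw [hε]; positivity
  have hεe : ε * ((A + 1) * (C₁ + 1)) = min 1 (min ε₁ M) := by
    rw [hε]; field_simp
  have e0 : A * ε ≤ 1 := by
    have h1 : A * ε ≤ ε * ((A + 1) * (C₁ + 1)) := by nlinarith [mul_nonneg hA hC₁.le]
    exact h1.trans (hεe.le.trans (min_le_left _ _))
  have e1 : C₁ * (A * ε) ≤ min ε₁ M := by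
    have h1 : C₁ * (A * ε) ≤ ε * ((A + 1) * (C₁ + 1)) := by nlinarith [mul_nonneg hA hC₁.le]
    exact h1.trans (hεe.le.trans (min_le_right _ _))
  obtain ⟨J, hJ⟩ : ∃ J : ℝ, J = (n.factorial : ℝ) * (3 * 24 ^ 2) ^ n := ⟨_, rfl⟩
  obtain ⟨Bw, hBw⟩ : ∃ B : ℝ, B = ((5 / 4) ^ 2 : ℝ) ^ (n - 2) := ⟨_, rfl⟩
  obtain ⟨BF, hBF⟩ : ∃ B : ℝ, B = ((24 : ℝ) ^ 2) ^ (n - 2) * ((24 ^ 2) ^ 2) ^ 2 := ⟨_, rfl⟩
  have hJ0 : 0 ≤ J := by rw [hJ]; positivity
  have hBw0 : 0 ≤ Bw := by rw [hBw]; positivity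
  have hBF0 : 0 ≤ BF := by rw [hBF]; positivity
  refine ⟨ε, 1 + J * Bw * (16 / (σ₀ * c₀)) * (J * BF), ρ₀, hε0, ?_, hρ₀, ?_⟩
  · have : 0 ≤ J * Bw * (16 / (σ₀ * c₀)) * (J * BF) := by positivity
    linarith
  intro s hs hsy hcl g hg O hO hOA B C0 hco ρ hρ F hF hFi
  have hρp : 0 < ρ := by linarith
  -- the domain
  have hOq : ∀ x ∈ O, (4 / 5) ^ 2 < HY.sq x ∧ HY.sq x < 24 ^ 2 := fun x hx =>
    ao_sq (by norm_num) (hOA hx)
  have hO0 : ∀ x ∈ O, x ≠ 0 := by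
    intro x hx h
    have h1 := (hOq x hx).1
    rw [h] at h1
    have h2 : HY.sq (0 : V n) = 0 := by simp [sq_def]
    rw [h2] at h1
    norm_num at h1
  obtain ⟨O', hO'⟩ : ∃ O' : Set (V n), O' = iv '' O := ⟨_, rfl⟩
  have hO'o : IsOpen O' := by rw [hO']; exact isOpen_img hO hO0
  have hO'0 : ∀ y ∈ O', y ≠ 0 := by
    intro y hy
    rw [hO'] at hy
    exact ((mem_img hO0).1 hy).1
  have hO'i : ∀ y ∈ O', iv y ∈ O := by
    intro y hy
    rw [hO'] at hy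
    exact ((mem_img hO0).1 hy).2
  have hOO : O = iv '' O' := by rw [hO', iv_img hO0]
  have hO'q : ∀ y ∈ O', (1 / 40) ^ 2 < HY.sq y ∧ HY.sq y < 3 ^ 2 ∧ HY.sq y < (5 / 4) ^ 2 ∧
      (HY.sq y)⁻¹ ≤ 24 ^ 2 := fun y hy => iv_ann hOA (hO'0 y hy) (hO'i y hy)
  have hO'E : O' ⊆ Eb (0 : V n) (5 / 4) := by
    intro y hy
    show HY.sq (y - 0) < _
    rw [sub_zero]
    exact (hO'q y hy).2.2.1
  -- the transformed tensor
  have hs' := sc_sm χs hs
  have hsy' : ∀ x, (sc χ s x).IsSymm := sc_sy hsy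
  have hcl' : ∀ i j, Cl (2 + 2) (A * ε) (fun x => sc χ s x i j -
      (1 : Matrix (Fin n) (Fin n) ℝ) i j) := by
    intro i j
    have h1 : (fun x => sc χ s x i j - (1 : Matrix (Fin n) (Fin n) ℝ) i j) =
        fun x => χ x * (fun x => s x i j - (1 : Matrix (Fin n) (Fin n) ℝ) i j) x := by
      funext x
      rw [sc_ap]
      ring
    rw [h1]
    exact HA _ _ ((hs i j).sub contDiff_const) (hcl i j)
  obtain ⟨⟨s', v', hs's, hv's, hs'y, hs'e, hs'c, hv'c, -⟩, HKi⟩ := HK (sc χ s) (A * ε) hs' hsy'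
    (by positivity) e0 hcl' (fun x hx => sc_zero (χ0 x (by
      by_contra h
      refine hx ?_
      show HY.sq (x - 0) < _
      rw [sub_zero]
      exact not_le.1 h)))
  have hle1 : C₁ * (A * ε) ≤ ε₁ := e1.trans (min_le_left _ _)
  have hleM : C₁ * (A * ε) ≤ M := e1.trans (min_le_right _ _)
  have hCW : R2.H404.CW O' ε₁ M σ₀ c₀ s' g := by
    have hsub : ∀ i j k, pd k (fun y => s' y i j) =
        pd k (fun y => s' y i j - (1 : Matrix (Fin n) (Fin n) ℝ) i j) := fun i j k =>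
      (pd_sub_c (hs's i j) _ k).symm
    have hsm' : ∀ i j, ContDiff ℝ ∞ (fun y => s' y i j - (1 : Matrix (Fin n) (Fin n) ℝ) i j) :=
      fun i j => (hs's i j).sub contDiff_const
    refine ⟨fun i j => (hs's i j).contDiffOn, fun x _ i j => (hs'y x).apply j i, ?_, ?_, ?_,
      hg.sm.contDiffOn, fun x hx => hg.g1 x (hO'E hx), fun x hx => hg.g2 x (hO'E hx),
      fun x hx => hg.g3 x (hO'E hx), fun x hx => hg.gr x (hO'E hx), fun x hx ξ => ?_⟩
    · intro x _ i j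
      exact (cl_zero' (hs'c i j) x).trans hle1
    · intro x _ k i j
      show |pd k (fun y => s' y i j) x| ≤ _
      rw [hsub i j k]
      exact (cl_one (by norm_num) (hsm' i j) (hs'c i j) k x).trans hle1
    · intro x _ l k i j
      show |pd l (pd k (fun y => s' y i j)) x| ≤ _
      rw [hsub i j k]
      exact (cl_one (by norm_num) (XK.cd_pd (hsm' i j) k) (cl_pd' (hsm' i j) (hs'c i j) k) l x).trans
        hle1
    · refine (hg.gc x (hO'E hx) ξ).trans (le_of_eq ?_)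
      exact Finset.sum_congr rfl fun i _ => Finset.sum_congr rfl fun j _ => by
        show ξ i * ξ j * pd i (pd j g) x = pd i (pd j g) x * ξ i * ξ j
        ring
  -- the lower order coefficients
  have hBiv : ∀ a b l, ContDiffOn ℝ ∞ (fun y => B a b l (iv y)) O' := fun a b l =>
    cd_civ hO hO'0 hO'i (hco.bs a b l)
  have hrf : ∀ i l, ContDiffOn ℝ ∞ (fun y : V n => rf y i l * (HY.sq y ^ 1)⁻¹) O' := fun i l =>
    (cdo_rfq i l).mono fun y hy => hO'0 y hy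
  have hCo : R2.H404.CoB O' M' (tB B) (tC B C0 v') := by
    refine ⟨fun a b i => ?_, fun a b => ?_, fun a b i y hy => ?_, fun a b i y hy => ?_,
      fun a b y hy => ?_⟩
    · exact ContDiffOn.sum fun l _ => (hrf i l).mul (hBiv a b l)
    · refine ContDiffOn.sub (ContDiffOn.add ?_ ?_) (ContDiffOn.sum fun l _ => ?_)
      · by_cases hab : a = b
        · simp only [if_pos hab]
          exact hv's.contDiffOn
        · simp only [if_neg hab]
          exact contDiffOn_const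
      · exact (cdo_iq2.mono fun y hy => hO'0 y hy).mul (cd_civ hO hO'0 hO'i (hco.cs a b))
      · exact ((cdo_yq2 l).mono fun y hy => hO'0 y hy).mul (hBiv a b l)
    · have hq := hO'q y hy
      have h1 : |tB B a b i y| ≤ n * (β1 * M) := abs_sum_n fun l => by
        rw [abs_mul]
        exact mul_le_mul (Hβ1 (i, l) y hq.1 hq.2.1).1 (hco.b0 a b l _ (hO'i y hy)) (abs_nonneg _)
          (by linarith)
      rw [hM']
      linarith
    · have hq := hO'q y hy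
      have hd1 : ∀ l, DifferentiableAt ℝ (fun y : V n => rf y i l * (HY.sq y ^ 1)⁻¹) y := fun l =>
        ((hrf i l).contDiffAt (hO'o.mem_nhds hy)).differentiableAt (by simp)
      have hd2 : ∀ l, DifferentiableAt ℝ (fun y => B a b l (iv y)) y := fun l =>
        ((hBiv a b l).contDiffAt (hO'o.mem_nhds hy)).differentiableAt (by simp)
      have h1 : LR.pd i (tB B a b i) y = ∑ l, ((rf y i l * (HY.sq y ^ 1)⁻¹) *
          pd i (fun y => B a b l (iv y)) y +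
          B a b l (iv y) * pd i (fun y : V n => rf y i l * (HY.sq y ^ 1)⁻¹) y) := by
        show pd i (fun y => ∑ l, (rf y i l * (HY.sq y ^ 1)⁻¹) * B a b l (iv y)) y = _
        rw [pd_sum (f := fun l y => (rf y i l * (HY.sq y ^ 1)⁻¹) * B a b l (iv y))
          (fun l _ => (hd1 l).mul (hd2 l))]
        exact Finset.sum_congr rfl fun l _ => pd_mul (hd1 l) (hd2 l) i
      have h2 : ∀ l, |pd i (fun y => B a b l (iv y)) y| ≤ n * (β1 * M) := by
        intro l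
        rw [pd_comp_iv (hO'0 y hy) (((hco.bs a b l).contDiffAt
          (hO.mem_nhds (hO'i y hy))).differentiableAt (by simp))]
        refine abs_sum_n fun k => ?_
        rw [abs_mul]
        have h3 := (Hβ1 (k, i) y hq.1 hq.2.1).1
        simp only [pow_one] at h3
        exact mul_le_mul h3 (hco.b1 a b l k _ (hO'i y hy)) (abs_nonneg _) (by linarith)
      have h3 : |LR.pd i (tB B a b i) y| ≤ n * (β1 * (n * (β1 * M)) + M * β1) := by
        rw [h1]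
        refine abs_sum_n fun l => (abs_add_le _ _).trans (add_le_add ?_ ?_)
        · rw [abs_mul]
          exact mul_le_mul (Hβ1 (i, l) y hq.1 hq.2.1).1 (h2 l) (abs_nonneg _) (by linarith)
        · rw [abs_mul]
          exact mul_le_mul (hco.b0 a b l _ (hO'i y hy)) ((Hβ1 (i, l) y hq.1 hq.2.1).2 i)
            (abs_nonneg _) hM.le
      rw [hM']
      linarith
    · have hq := hO'q y hy
      have h1 : |if a = b then v' y else 0| ≤ M := by
        split_ifs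
        · exact (cl_zero' hv'c y).trans hleM
        · rw [abs_zero]; exact hM.le
      have h2 : |(HY.sq y ^ 2)⁻¹ * C0 a b (iv y)| ≤ β2 * M := by
        rw [abs_mul]
        exact mul_le_mul (Hβ2 y hq.1 hq.2.1).1 (hco.c0 a b _ (hO'i y hy)) (abs_nonneg _)
          (by linarith)
      have h3 : |∑ l, ((((n - 2 : ℕ) : ℝ) * y l) * (HY.sq y ^ 2)⁻¹) * B a b l (iv y)| ≤
          n * (β3 * M) := abs_sum_n fun l => by
        rw [abs_mul]
        exact mul_le_mul (Hβ3 l y hq.1 hq.2.1).1 (hco.b0 a b l _ (hO'i y hy)) (abs_nonneg _)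
          (by linarith)
      have h4 : |tC B C0 v' a b y| ≤ (M + β2 * M) + n * (β3 * M) := by
        unfold tC
        exact (abs_sub _ _).trans (add_le_add ((abs_add_le _ _).trans (add_le_add h1 h2)) h3)
      rw [hM']
      linarith
  -- the transformed right hand side
  obtain ⟨F', hF'⟩ : ∃ F' : Fin m → V n → ℝ,
    F' = fun a y => nw n y * (HY.sq y ^ 2)⁻¹ * F a (iv y) := ⟨_, rfl⟩
  have hF's : ∀ a, ContDiffOn ℝ ∞ (F' a) O' := by
    intro a
    rw [hF']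
    intro y hy
    have h0 := hO'0 y hy
    have h1 : ContDiffAt ℝ ∞ (F a) (iv y) := (hF a).contDiffAt (hO.mem_nhds (hO'i y hy))
    exact (((cd_nw h0).mul (cd_invpow 2 h0)).mul (h1.comp y (cd_iv h0))).contDiffWithinAt
  have hgc : Continuous fun y => Real.exp (-(2 * ρ * g y)) :=
    Real.continuous_exp.comp (continuous_const.mul hg.sm.continuous).neg
  have c1 : ∀ a, IntegrableOn (fun y => F' a y ^ 2 * Real.exp (-(2 * ρ * g y))) O' ∧
      ∫ y in O', F' a y ^ 2 * Real.exp (-(2 * ρ * g y)) ≤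
        J * BF * ∫ x in O, F a x ^ 2 * Real.exp (-(2 * ρ * g (iv x))) := by
    intro a
    have c1 := cov hO hO0 (r := 24 ^ 2) (fun x hx => by
        rw [inv_le_comm₀ (sq_pos (hO0 x hx)) (by norm_num)]
        exact le_trans (by norm_num) (hOq x hx).1.le)
      (g := fun y => F' a y ^ 2 * Real.exp (-(2 * ρ * g y)))
      (h := fun x => F a x ^ 2 * Real.exp (-(2 * ρ * g (iv x)))) (A := BF)
      (by
        rw [← hO']
        exact ((hF's a).continuousOn.pow 2).mul hgc.continuousOn)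
      (fun y _ => mul_nonneg (_root_.sq_nonneg _) (Real.exp_pos _).le) (hFi a) (fun x hx => by
        have h0 := hO0 x hx
        have hq := sq_pos h0
        have h1 : F' a (iv x) = (nw n x)⁻¹ * HY.sq x ^ 2 * F a x := by
          rw [hF']
          show nw n (iv x) * (HY.sq (iv x) ^ 2)⁻¹ * F a (iv (iv x)) = _
          rw [nw_iv h0, sq_iv h0, iv_iv h0, inv_pow, inv_inv]
        have h2 : (nw n x)⁻¹ ^ 2 = HY.sq x ^ (n - 2) := by
          rw [inv_pow, nw_sq h0, inv_inv]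
        show F' a (iv x) ^ 2 * Real.exp (-(2 * ρ * g (iv x))) ≤ _
        rw [h1, ← mul_assoc, mul_pow, mul_pow, h2]
        refine mul_le_mul_of_nonneg_right ?_ (Real.exp_pos _).le
        refine mul_le_mul_of_nonneg_right ?_ (_root_.sq_nonneg _)
        rw [hBF]
        have h3 := (hOq x hx).2.le
        gcongr)
    rwa [← hO', ← hJ] at c1
  obtain ⟨u, hu1, hu2, hu3, hu4⟩ := H O' hO'o s' g (hCW.mono hMM) (tB B) (tC B C0 v') hCo ρ hρ F'
    hF's fun a => (c1 a).1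
  have hws : ∀ a, ContDiffOn ℝ ∞ (fun x => nw n x * u a (iv x)) O := by
    intro a x hx
    have h0 := hO0 x hx
    have h1 : iv x ∈ O' := by rw [hO']; exact ⟨x, hx, rfl⟩
    have h2 : ContDiffAt ℝ ∞ (u a) (iv x) := (hu1 a).contDiffAt (hO'o.mem_nhds h1)
    exact ((cd_nw h0).mul (h2.comp x (cd_iv h0))).contDiffWithinAt
  have c2 : ∀ a, IntegrableOn (fun x => (nw n x * u a (iv x)) ^ 2 *
      Real.exp (-(2 * ρ * g (iv x)))) O ∧
      ∫ x in O, (nw n x * u a (iv x)) ^ 2 * Real.exp (-(2 * ρ * g (iv x))) ≤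
        J * Bw * ∫ y in O', u a y ^ 2 * Real.exp (-(2 * ρ * g y)) := by
    intro a
    have c2 := cov hO'o hO'0 (r := 24 ^ 2) (fun y hy => (hO'q y hy).2.2.2)
      (g := fun x => (nw n x * u a (iv x)) ^ 2 * Real.exp (-(2 * ρ * g (iv x))))
      (h := fun y => u a y ^ 2 * Real.exp (-(2 * ρ * g y))) (A := Bw)
      (by
        rw [← hOO]
        exact ((hws a).continuousOn.pow 2).mul (hgc.comp_continuousOn fun x hx =>
          (da_iv (hO0 x hx)).continuousAt.continuousWithinAt))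
      (fun y _ => mul_nonneg (_root_.sq_nonneg _) (Real.exp_pos _).le) (hu3 a) (fun y hy => by
        have h0 := hO'0 y hy
        have hq := sq_pos h0
        have h2 : (nw n y)⁻¹ ^ 2 = HY.sq y ^ (n - 2) := by
          rw [inv_pow, nw_sq h0, inv_inv]
        show (nw n (iv y) * u a (iv (iv y))) ^ 2 * Real.exp (-(2 * ρ * g (iv (iv y)))) ≤ _
        rw [iv_iv h0, nw_iv h0, ← mul_assoc, mul_pow, h2]
        refine mul_le_mul_of_nonneg_right ?_ (Real.exp_pos _).le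
        refine mul_le_mul_of_nonneg_right ?_ (_root_.sq_nonneg _)
        rw [hBw]
        have h3 := (hO'q y hy).2.2.1.le
        gcongr)
    rwa [← hOO, ← hJ] at c2
  refine ⟨fun a x => nw n x * u a (iv x), hws, fun a x hx => ?_, fun a => (c2 a).1, ?_⟩
  · -- the equation
    have h0 := hO0 x hx
    have hy0 : iv x ≠ 0 := iv_ne h0
    have hy : iv x ∈ O' := by rw [hO']; exact ⟨x, hx, rfl⟩
    have hk := HKi O' (u a) hO'o hO'0 (hu1 a) (iv x) hy
    have hn1 : ∀ᶠ z in 𝓝 (iv x), z ∈ Eb (0 : V n) (5 / 4) :=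
      (isOpen_Eb 0 (5 / 4)).mem_nhds (hO'E hy)
    have hn2 : ∀ᶠ z in 𝓝 (iv x), z ≠ 0 := isOpen_ne.mem_nhds (iv_ne h0)
    have h1 : Ldv (ks (sc χ s)) (u a) (iv x) = Ldv s' (u a) (iv x) := Ldv_ev (by
      filter_upwards [hn1, hn2] with z hz hz'
      exact (hs'e z hz hz').1.symm)
    have h2 : kv (sc χ s) (iv x) = v' (iv x) := (hs'e _ (hO'E hy) (iv_ne h0)).2.symm
    have h3 := hu2 a _ hy
    have h4 : Ldv (sc χ s) (fun x => nw n x * u a (iv x)) x =
        Ldv s (fun x => nw n x * u a (iv x)) x := Ldv_ev (by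
      have h5 : ∀ᶠ z in 𝓝 x, z ∈ O := hO.mem_nhds hx
      filter_upwards [h5] with z hz
      exact sc_one (χ1 z (hOq z hz).2.le))
    -- everything at `y = iv x`
    obtain ⟨y, hyx⟩ : ∃ y, y = iv x := ⟨_, rfl⟩
    have hxy : x = iv y := by rw [hyx, iv_iv h0]
    rw [← hyx] at hk h1 h2 h3 hy0 hy
    rw [← hxy] at hk
    rw [h1, h2] at hk
    have hdu : ∀ b, DifferentiableAt ℝ (u b) y := fun b =>
      ((hu1 b).contDiffAt (hO'o.mem_nhds hy)).differentiableAt (by simp)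
    have h5 : ∀ b l, pd l (fun x => nw n x * u b (iv x)) x = (nw n y)⁻¹ *
        (∑ i, rf y i l * HY.sq y * pd i (u b) y - ((n - 2 : ℕ) : ℝ) * y l * u b y) := by
      intro b l
      rw [hxy]
      exact pd_w hy0 (hdu b) l
    have h6 := (nw_pos hy0).ne'
    have h7 := (sq_pos hy0).ne'
    have h8 : R2.H404.Ls s' (tB B) (tC B C0 v') u a y = Ldv s' (u a) y +
        ∑ b, (∑ i, tB B a b i y * pd i (u b) y + tC B C0 v' a b y * u b y) := rfl
    have h9 : R2.H404.Ls s B C0 (fun a x => nw n x * u a (iv x)) a x =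
        Ldv s (fun x => nw n x * u a (iv x)) x + ∑ b, (∑ l, B a b l x *
          pd l (fun x => nw n x * u b (iv x)) x + C0 a b x * (nw n x * u b (iv x))) := rfl
    have h10 : ∀ b, ∑ l, B a b l x * pd l (fun x => nw n x * u b (iv x)) x +
        C0 a b x * (nw n x * u b (iv x)) = (nw n y)⁻¹ * HY.sq y ^ 2 *
          (∑ i, tB B a b i y * pd i (u b) y +
            (tC B C0 v' a b y - (if a = b then v' y else 0)) * u b y) := by
      intro b
      have k1 : nw n x = (nw n y)⁻¹ := by rw [hxy, nw_iv hy0]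
      have k2 : u b (iv x) = u b y := by rw [← hyx]
      have k3 : ∑ i, tB B a b i y * pd i (u b) y =
          ∑ l, B a b l x * (∑ i, rf y i l * (HY.sq y)⁻¹ * pd i (u b) y) := by
        unfold tB
        simp only [Finset.sum_mul, Finset.mul_sum]
        rw [Finset.sum_comm]
        refine Finset.sum_congr rfl fun l _ => Finset.sum_congr rfl fun i _ => ?_
        rw [← hxy, pow_one]
        ring
      have k4 : (tC B C0 v' a b y - (if a = b then v' y else 0)) * u b y =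
          (HY.sq y ^ 2)⁻¹ * C0 a b x * u b y -
            ∑ l, B a b l x * (((n - 2 : ℕ) : ℝ) * y l * (HY.sq y ^ 2)⁻¹ * u b y) := by
        have k7 : ∑ l, B a b l x * (((n - 2 : ℕ) : ℝ) * y l * (HY.sq y ^ 2)⁻¹ * u b y) =
            (∑ l, ((((n - 2 : ℕ) : ℝ) * y l) * (HY.sq y ^ 2)⁻¹) * B a b l x) * u b y := by
          rw [Finset.sum_mul]
          exact Finset.sum_congr rfl fun l _ => by ring
        rw [k7]
        unfold tC
        rw [← hxy]
        ring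
      rw [k1, k2, k3, k4, ← sub_eq_zero]
      have k5 : ∑ l, B a b l x * pd l (fun x => nw n x * u b (iv x)) x =
          (nw n y)⁻¹ * HY.sq y ^ 2 * (∑ l, B a b l x * (∑ i, rf y i l * (HY.sq y)⁻¹ * pd i (u b) y) -
            ∑ l, B a b l x * (((n - 2 : ℕ) : ℝ) * y l * (HY.sq y ^ 2)⁻¹ * u b y)) := by
        rw [← Finset.sum_sub_distrib, Finset.mul_sum]
        refine Finset.sum_congr rfl fun l _ => ?_
        rw [h5 b l]
        have k6 : ∑ i, rf y i l * HY.sq y * pd i (u b) y =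
            HY.sq y ^ 2 * ∑ i, rf y i l * (HY.sq y)⁻¹ * pd i (u b) y := by
          rw [Finset.mul_sum]
          refine Finset.sum_congr rfl fun i _ => ?_
          field_simp
        rw [k6]
        field_simp
      rw [k5]
      obtain ⟨S1, hS1⟩ : ∃ S1, S1 =
        ∑ l, B a b l x * (∑ i, rf y i l * (HY.sq y)⁻¹ * pd i (u b) y) := ⟨_, rfl⟩
      obtain ⟨S2, hS2⟩ : ∃ S2, S2 =
        ∑ l, B a b l x * (((n - 2 : ℕ) : ℝ) * y l * (HY.sq y ^ 2)⁻¹ * u b y) := ⟨_, rfl⟩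
      rw [← hS1, ← hS2]
      field_simp
      ring
    rw [h9, Finset.sum_congr rfl fun b _ => h10 b, ← Finset.mul_sum, ← h4, hk]
    have h11 : ∑ b, (∑ i, tB B a b i y * pd i (u b) y +
        (tC B C0 v' a b y - (if a = b then v' y else 0)) * u b y) =
        ∑ b, (∑ i, tB B a b i y * pd i (u b) y + tC B C0 v' a b y * u b y) - v' y * u a y := by
      have h12 : v' y * u a y = ∑ b, (if a = b then v' y else 0) * u b y := by
        simp
      rw [h12, ← Finset.sum_sub_distrib]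
      exact Finset.sum_congr rfl fun b _ => by ring
    rw [h11, ← mul_add]
    have h13 : Ldv s' (u a) y + v' y * u a y +
        (∑ b, (∑ i, tB B a b i y * pd i (u b) y + tC B C0 v' a b y * u b y) - v' y * u a y) =
        F' a y := by
      rw [← h3, h8]
      ring
    rw [h13, hF']
    show (nw n y)⁻¹ * HY.sq y ^ 2 * (nw n y * (HY.sq y ^ 2)⁻¹ * F a (iv y)) = F a x
    rw [← hxy]
    field_simp
  · have k0 : ∑ a, ∫ x in O, (nw n x * u a (iv x)) ^ 2 * Real.exp (-(2 * ρ * g (iv x))) ≤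
        J * Bw * ∑ a, ∫ y in O', u a y ^ 2 * Real.exp (-(2 * ρ * g y)) := by
      rw [Finset.mul_sum]
      exact Finset.sum_le_sum fun a _ => (c2 a).2
    have k00 : ∑ a, ∫ y in O', F' a y ^ 2 * Real.exp (-(2 * ρ * g y)) ≤
        J * BF * ∑ a, ∫ x in O, F a x ^ 2 * Real.exp (-(2 * ρ * g (iv x))) := by
      rw [Finset.mul_sum]
      exact Finset.sum_le_sum fun a _ => (c1 a).2
    refine k0.trans ?_
    have k1 := mul_le_mul_of_nonneg_left hu4 (mul_nonneg hJ0 hBw0)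
    have k2 : 16 / (σ₀ * c₀ * ρ ^ 3) * ∑ a, ∫ x in O', F' a x ^ 2 * Real.exp (-(2 * ρ * g x)) ≤
        16 / (σ₀ * c₀ * ρ ^ 3) *
          (J * BF * ∑ a, ∫ x in O, F a x ^ 2 * Real.exp (-(2 * ρ * g (iv x)))) :=
      mul_le_mul_of_nonneg_left k00 (by positivity)
    have k3 := mul_le_mul_of_nonneg_left k2 (mul_nonneg hJ0 hBw0)
    refine k1.trans (k3.trans ?_)
    have k4 : 0 ≤ ∑ a, ∫ x in O, F a x ^ 2 * Real.exp (-(2 * ρ * g (iv x))) :=
      Finset.sum_nonneg fun a _ =>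
        integral_nonneg fun x => mul_nonneg (_root_.sq_nonneg _) (Real.exp_pos _).le
    have k5 : J * Bw * (16 / (σ₀ * c₀ * ρ ^ 3) * (J * BF *
        ∑ a, ∫ x in O, F a x ^ 2 * Real.exp (-(2 * ρ * g (iv x))))) =
        (J * Bw * (16 / (σ₀ * c₀)) * (J * BF)) / ρ ^ 3 *
          ∑ a, ∫ x in O, F a x ^ 2 * Real.exp (-(2 * ρ * g (iv x))) := by
      field_simp
    rw [k5]
    refine mul_le_mul_of_nonneg_right ?_ k4
    gcongr
    linarith

/-- Weighted integrability of test functions. -/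
theorem int_cs {O : Set (V n)} (hOA : O ⊆ Ao n (4 / 5) 24) {g : V n → ℝ} (hg : ContDiff ℝ ∞ g)
    {F : V n → ℝ} (hF : ContDiff ℝ ∞ F) (hc : HasCompactSupport F) (ht : tsupport F ⊆ O) (ρ : ℝ) :
    IntegrableOn (fun x => F x ^ 2 * Real.exp (-(2 * ρ * g (iv x)))) O := by
  have hO0 : ∀ x ∈ tsupport F, x ≠ 0 := by
    intro x hx h
    have h1 := (ao_sq (by norm_num) (hOA (ht hx))).1
    rw [h] at h1
    have h2 : HY.sq (0 : V n) = 0 := by simp [sq_def]
    rw [h2] at h1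
    norm_num at h1
  have h1 : ContinuousOn (fun x => F x ^ 2 * Real.exp (-(2 * ρ * g (iv x)))) (tsupport F) := by
    refine (hF.continuous.pow 2).continuousOn.mul (Real.continuous_exp.comp_continuousOn ?_)
    refine (continuousOn_const.mul (hg.continuous.comp_continuousOn fun x hx => ?_)).neg
    exact (da_iv (hO0 x hx)).continuousAt.continuousWithinAt
  have h2 : IntegrableOn (fun x => F x ^ 2 * Real.exp (-(2 * ρ * g (iv x)))) (tsupport F) :=
    h1.integrableOn_compact hc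
  refine ((integrableOn_iff_integrable_of_support_subset ?_).1 h2).integrableOn
  intro x hx
  refine subset_tsupport F ?_
  intro h
  refine hx ?_
  show F x ^ 2 * Real.exp (-(2 * ρ * g (iv x))) = 0
  rw [h]
  ring

/-- **P2D**: the scalar operator `∑ ∂_i (s_ij ∂_j z)`. -/
theorem p2D (hyp : RowHYP) (n : ℕ) (hn : 3 ≤ n) {M σ₀ c₀ : ℝ} (hM : 0 < M) (hσ : 0 < σ₀)
    (hc : 0 < c₀) : ∃ ε C ρ₀ : ℝ, 0 < ε ∧ 1 ≤ C ∧ 1 ≤ ρ₀ ∧ ∀ s : MF n, SmM s →
    (∀ x, (s x).IsSymm) →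
    (∀ i j, Cl 4 ε (fun x => s x i j - (1 : Matrix (Fin n) (Fin n) ℝ) i j)) →
    ∀ g : V n → ℝ, Lvl n M σ₀ c₀ g → ∀ O : Set (V n), IsOpen O → O ⊆ Ao n (4 / 5) 24 →
    ∀ ρ : ℝ, ρ₀ ≤ ρ → ∀ F : V n → ℝ, ContDiff ℝ ∞ F → HasCompactSupport F → tsupport F ⊆ O →
      ∃ z : V n → ℝ, ContDiffOn ℝ ∞ z O ∧ (∀ x ∈ O, R2.H404.Ld s z x = F x) ∧
        IntegrableOn (fun x => z x ^ 2 * Real.exp (-(2 * ρ * g (iv x)))) O ∧
        ∫ x in O, z x ^ 2 * Real.exp (-(2 * ρ * g (iv x))) ≤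
          C / ρ ^ 3 * ∫ x in O, F x ^ 2 * Real.exp (-(2 * ρ * g (iv x))) := by
  obtain ⟨ε, C, ρ₀, hε, hC, hρ₀, H⟩ := p2N hyp n 1 hn hM hσ hc
  refine ⟨ε, C, ρ₀, hε, hC, hρ₀, fun s hs hsy hcl g hg O hO hOA ρ hρ F hF hFc hFt => ?_⟩
  obtain ⟨w, h1, h2, h3, h4⟩ := H s hs hsy hcl g hg O hO hOA (fun _ _ _ _ => 0) (fun _ _ _ => 0)
    ⟨fun _ _ _ => contDiffOn_const, fun _ _ => contDiffOn_const,
      fun _ _ _ _ _ => by simpa using hM.le, fun _ _ _ k x _ => by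
        rw [pd_const]; simpa using hM.le, fun _ _ _ _ => by simpa using hM.le⟩ ρ hρ
    (fun _ => F) (fun _ => hF.contDiffOn) (fun _ => int_cs hOA hg.sm hF hFc hFt ρ)
  refine ⟨w 0, h1 0, fun x hx => ?_, h3 0, ?_⟩
  · have := h2 0 x hx
    unfold R2.H404.Ls at this
    simpa using this
  · simpa using h4

end Vale.Agent.P088.HY.H437.Kel
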