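import Vale.Agent.P088.R2.H437.P2N
import Vale.Agent.P088.R2.H455.S4.SpecB
import Vale.Agent.P088.R2.H349.Hyp

/-!
# P088, stage 4, row P2N of `H455/S4/SpecB`
-/

open MeasureTheory Set Filter Topology
open scoped ContDiff Matrix

noncomputable section

namespace Vale.Agent.P088.S4.H437

open Vale.Agent.P088.LR Vale.Agent.P088.HY.H437.Kel

/-- **P2N.** -/
theorem rowP2N : RowP2N := by
  intro n m hn M σ₀ c₀ hM hσ hc
  obtain ⟨ε, C, ρ₀, hε, hC, hρ₀, H⟩ := p2N HY.rowHYP n m hn hM hσ hc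
  refine ⟨4, ε, C, ρ₀, hε, hC, fun s hs hsy hcl B C' hco hb1 g hg O hO hOA ρ hρ _ F hF hFi => ?_⟩
  exact H s hs hsy hcl g hg O hO hOA B C'
    ⟨fun a b l => (hco.bs a b l).mono hOA, fun a b => (hco.cs a b).mono hOA,
      fun a b l x hx => hco.b0 a b l x (hOA hx), fun a b l k x hx => hb1 a b l k x (hOA hx),
      fun a b x hx => hco.c0 a b x (hOA hx)⟩ ρ hρ F hF hFi

end Vale.Agent.P088.S4.H437
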